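import Vale.Agent.P150.Weak.Overlap.Deriv

/-!
The interpolated moment grows at most exponentially.
-/

open MeasureTheory ProbabilityTheory Real Finset Filter
open scoped Topology

namespace Vale.Agent.P150.Weak.Ov

variable {m : ℕ} {v τ q lam cc : ℝ}

/-- The pointwise derivative of the interpolated moment. -/
noncomputable def phiDer (v τ q lam cc : ℝ) (s : ℝ) (g : Idx m → ℝ) : ℝ :=
  exp (aI cc s * lI v τ q lam s g) *
    (-(cc * aI cc s) * lI v τ q lam s g + aI cc s * (-(v * m) / 2 * gAvg (hamL v τ q lam s g) (dev q) +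
      ∑ k, (dcI v q k + dcI v q k / (2 * √(cI v τ q s k)) * g k) * dlt v τ q lam s g k))

lemma hasDerivAt_cI (s : ℝ) (k : Idx m) : HasDerivAt (fun u => cI v τ q u k) (dcI v q k) s := by
  rcases k with e | i <;> simp only [cI, dcI, cst, Sum.elim_inl, Sum.elim_inr]
  · exact hasDerivAt_mul_const v
  · refine ((((hasDerivAt_id s).const_sub 1).mul_const (v * m * q)).const_add τ).congr_deriv ?_
    ring

lemma cI_nonneg (hv : 0 ≤ v) (hτ : 0 ≤ τ) (hq : 0 ≤ q) {s : ℝ} (h0 : 0 ≤ s) (h1 : s ≤ 1)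
    (k : Idx m) : 0 ≤ cI v τ q s k := by
  rcases k with e | i <;> simp only [cI, cst, Sum.elim_inl, Sum.elim_inr]
  · positivity
  · exact add_nonneg hτ (mul_nonneg (by linarith) (by positivity))

lemma hasDerivAt_sqrt_cI (hv : 0 ≤ v) (hτ : 0 ≤ τ) (hq : 0 ≤ q) {s : ℝ} (h0 : 0 < s) (h1 : s < 1)
    (k : Idx m) :
    HasDerivAt (fun u => √(cI v τ q u k)) (dcI v q k / (2 * √(cI v τ q s k))) s := by
  by_cases hne : cI v τ q s k = 0
  · have hz : ∀ u, cI v τ q u k = 0 := by
      intro u
      rcases k with e | i <;> simp only [cI, cst, Sum.elim_inl, Sum.elim_inr] at hne ⊢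
      · rw [(mul_eq_zero.1 hne).resolve_left h0.ne', mul_zero]
      · have h2 : 0 ≤ (1 - s) * (v * m * q) := mul_nonneg (by linarith) (by positivity)
        have h3 : (1 - s) * (v * m * q) = 0 := by linarith
        have h4 := (mul_eq_zero.1 h3).resolve_left (by linarith)
        rw [h4, mul_zero] at hne ⊢
        linarith
    simp only [hz, sqrt_zero, mul_zero, div_zero]
    exact hasDerivAt_const s (0:ℝ)
  · exact (hasDerivAt_cI s k).sqrt hne

lemma hasDerivAt_integrand (hv : 0 ≤ v) (hτ : 0 ≤ τ) (hq : 0 ≤ q) {s : ℝ} (h0 : 0 < s) (h1 : s < 1)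
    (g : Idx m → ℝ) :
    HasDerivAt (fun u => exp (aI cc u * lI v τ q lam u g)) (phiDer v τ q lam cc s g) s := by
  set D : Idx m → ℝ := fun k => dcI v q k + dcI v q k / (2 * √(cI v τ q s k)) * g k
  have hh : ∀ x, HasDerivAt (fun u => ham (cI v τ q u) g x) (∑ k, D k * sig k x) s := fun x =>
    HasDerivAt.fun_sum fun k _ =>
      ((hasDerivAt_cI s k).add ((hasDerivAt_sqrt_cI hv hτ hq h0 h1 k).mul_const (g k))).mul_const _
  have hl : HasDerivAt (fun u => lamI v lam m u) (-(v * m) / 2) s := by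
    refine (((((hasDerivAt_id s).const_sub 1).mul_const (v * m)).div_const 2).const_add lam).congr_deriv ?_
    ring
  have hL : HasDerivAt (fun u => lI v τ q lam u g)
      (-(v * m) / 2 * gAvg (hamL v τ q lam s g) (dev q) + ∑ k, D k * dlt v τ q lam s g k) s := by
    refine ((hasDerivAt_lse (h := fun u => hamL v τ q lam u g) fun x =>
      (hh x).add (hl.mul_const (dev q x))).sub (hasDerivAt_lse hh)).congr_deriv ?_
    simp only [gAvg_add, gAvg_sum, gAvg_const_mul, dlt, mul_sub, sum_sub_distrib]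
    ring
  have ha : HasDerivAt (fun u => aI cc u) (-(cc * aI cc s)) s := by
    refine (((hasDerivAt_id s).const_mul cc).neg.exp).congr_deriv ?_
    simp [aI]; ring
  exact (ha.fun_mul hL).exp

lemma aI_mem (hcc : 0 ≤ cc) {s : ℝ} (hs : 0 ≤ s) : 0 < aI cc s ∧ aI cc s ≤ 1 :=
  ⟨exp_pos _, exp_le_one_iff.2 (by nlinarith)⟩

lemma lamI_bounds (hv : 0 ≤ v) {s : ℝ} (h0 : 0 ≤ s) (h1 : s ≤ 1) :
    lam ≤ lamI v lam m s ∧ lamI v lam m s ≤ lam + v * m / 2 := by
  have h2 : 0 ≤ v * m := by positivity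
  unfold lamI
  constructor <;> nlinarith [mul_nonneg (sub_nonneg.2 h1) h2, mul_nonneg h0 h2]

lemma exp_lI_le (hv : 0 ≤ v) (hlam : 0 ≤ lam) (hcc : 0 ≤ cc) (hq0 : 0 ≤ q) (hq1 : q ≤ 1) {s : ℝ}
    (h0 : 0 ≤ s) (h1 : s ≤ 1) (g : Idx m → ℝ) :
    exp (aI cc s * lI v τ q lam s g) ≤ exp ((lam + v * m / 2) * (4 * m)) ∧
      0 ≤ lI v τ q lam s g ∧ lI v τ q lam s g ≤ (lam + v * m / 2) * (4 * m) := by
  obtain ⟨a, b⟩ := lI_bounds hv hlam hq0 hq1 h1 g (τ := τ)
  have hb : lI v τ q lam s g ≤ (lam + v * m / 2) * (4 * m) :=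
    b.trans (mul_le_mul_of_nonneg_right (lamI_bounds hv h0 h1).2 (by positivity))
  exact ⟨exp_le_exp.2 ((mul_le_of_le_one_left a (aI_mem hcc h0).2).trans hb), a, hb⟩

lemma continuous_cI (k : Idx m) : Continuous fun s => cI v τ q s k :=
  continuous_iff_continuousAt.2 fun s => (hasDerivAt_cI s k).continuousAt

lemma continuousOn_phiI (hv : 0 ≤ v) (hlam : 0 ≤ lam) (hcc : 0 ≤ cc) (hq0 : 0 ≤ q) (hq1 : q ≤ 1) :
    ContinuousOn (phiI v τ q lam cc m) (Set.Icc 0 1) := by
  refine continuousOn_of_dominated (bound := fun _ => exp ((lam + v * m / 2) * (4 * m)))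
    (fun s _ => (continuous_const.mul (continuous_lI s)).rexp.aestronglyMeasurable)
    (fun s hs => ae_of_all _ fun g => ?_) (integrable_const _) (ae_of_all _ fun g => ?_)
  · rw [norm_eq_abs, abs_of_pos (exp_pos _)]
    exact (exp_lI_le hv hlam hcc hq0 hq1 hs.1 hs.2 g).1
  · refine Continuous.continuousOn ?_
    have hH : ∀ x : Conf m, Continuous fun s => ham (cI v τ q s) g x := fun x =>
      continuous_finsetSum _ fun k _ =>
        ((continuous_cI k).add ((continuous_cI k).sqrt.mul continuous_const)).mul continuous_const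
    have hl : Continuous fun s => lamI v lam m s := by unfold lamI; fun_prop
    have hL : Continuous fun s => lI v τ q lam s g := by
      unfold lI lse hamL
      exact ((continuous_finsetSum _ fun x _ => ((hH x).add (hl.mul continuous_const)).rexp).log
          fun s => (sum_exp_pos _).ne').sub
        ((continuous_finsetSum _ fun x _ => (hH x).rexp).log fun s => (sum_exp_pos _).ne')
    exact ((by unfold aI; fun_prop : Continuous fun s => aI cc s).mul hL).rexp

lemma hasDerivAt_phiI (hv : 0 ≤ v) (hlam : 0 ≤ lam) (hcc : 0 ≤ cc) (hτ : 0 ≤ τ) (hq0 : 0 ≤ q)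
    (hq1 : q ≤ 1) {s : ℝ} (h0 : 0 < s) (h1 : s < 1) :
    HasDerivAt (phiI v τ q lam cc m) (∫ g, phiDer v τ q lam cc s g ∂gauss (Idx m)) s := by
  set E := exp ((lam + v * m / 2) * (4 * m))
  set L := (lam + v * m / 2) * (4 * m)
  set R : Idx m → ℝ := fun k => |dcI v q k / (2 * √(cI v τ q s k))| + 1 with hR
  have hnb : ∀ᶠ u in 𝓝 s, u ∈ Set.Ioo (0:ℝ) 1 ∧
      ∀ k : Idx m, |dcI v q k / (2 * √(cI v τ q u k))| ≤ R k := by
    have hI : ∀ᶠ u in 𝓝 s, u ∈ Set.Ioo (0:ℝ) 1 := Ioo_mem_nhds h0 h1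
    refine hI.and (eventually_all.2 fun k => ?_)
    by_cases hne : dcI v q k = 0
    · exact Eventually.of_forall fun u => by simp [hne, hR]
    · have hpos : √(cI v τ q s k) ≠ 0 := by
        intro h
        have hz : cI v τ q s k = 0 := le_antisymm (sqrt_eq_zero'.1 h) (cI_nonneg hv hτ hq0 h0.le h1.le k)
        rcases k with e | i <;> simp only [cI, dcI, cst, Sum.elim_inl, Sum.elim_inr] at hz hne
        · exact hne ((mul_eq_zero.1 hz).resolve_left h0.ne')
        · have h2 : 0 ≤ (1 - s) * (v * m * q) := mul_nonneg (by linarith) (by positivity)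
          exact hne (by rw [(mul_eq_zero.1 (show (1 - s) * (v * m * q) = 0 by linarith)).resolve_left
            (by linarith), neg_zero])
      exact ((continuousAt_const.div ((continuous_cI k).sqrt.continuousAt.const_mul 2)
        (mul_ne_zero two_ne_zero hpos)).abs.eventually_lt continuousAt_const
        (lt_add_one _)).mono fun u hu => hu.le
  obtain ⟨S, hS, hSp⟩ := hnb.exists_mem
  refine (hasDerivAt_integral_of_dominated_loc_of_deriv_le
    (F := fun u g => exp (aI cc u * lI v τ q lam u g)) (F' := fun u g => phiDer v τ q lam cc u g)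
    (bound := fun g => E * (cc * L + (v * m / 2 * (4 * m) + ∑ k, (|dcI v q k| + R k * |g k|) * 2)))
    hS (Eventually.of_forall fun u => (continuous_const.mul (continuous_lI u)).rexp.aestronglyMeasurable)
    ?_ ?_ (ae_of_all _ fun g u hu => ?_) ?_
    (ae_of_all _ fun g u hu => hasDerivAt_integrand hv hτ hq0 (hSp u hu).1.1 (hSp u hu).1.2 g)).2
  · exact integrable_gauss_bound (continuous_const.mul (continuous_lI s)).rexp fun g => by
      rw [abs_of_pos (exp_pos _)]; exact (exp_lI_le hv hlam hcc hq0 hq1 h0.le h1.le g).1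
  · exact ((continuous_const.mul (continuous_lI s)).rexp.mul ((continuous_const.mul (continuous_lI s)).add
      (continuous_const.mul ((continuous_const.mul (continuous_gAvg_hamL s _)).add
        (continuous_finsetSum _ fun k _ => (continuous_const.add
          (continuous_const.mul (continuous_apply k))).mul (continuous_dlt s k)))))).aestronglyMeasurable
  · obtain ⟨⟨u0, u1⟩, hr⟩ := hSp u hu
    obtain ⟨hE, hL0, hL⟩ := exp_lI_le (τ := τ) hv hlam hcc hq0 hq1 u0.le u1.le g
    obtain ⟨ha0, ha1⟩ := aI_mem hcc u0.le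
    rw [norm_eq_abs, phiDer, abs_mul, abs_of_pos (exp_pos _)]
    refine mul_le_mul hE ((abs_add_le _ _).trans (add_le_add ?_ ?_)) (abs_nonneg _) (exp_pos _).le
    · rw [abs_mul, abs_neg, abs_mul, abs_of_nonneg hcc, abs_of_pos ha0, abs_of_nonneg hL0]
      exact mul_le_mul (mul_le_of_le_one_right hcc ha1) hL hL0 hcc
    · rw [abs_mul, abs_of_pos ha0]
      refine (mul_le_of_le_one_left (abs_nonneg _) ha1).trans ((abs_add_le _ _).trans (add_le_add ?_ ?_))
      · rw [abs_mul, show |-(v * m) / 2| = v * m / 2 by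
          rw [neg_div, abs_neg, abs_of_nonneg (by positivity)]]
        exact mul_le_mul_of_nonneg_left (abs_gAvg_le fun x => by
          rw [abs_of_nonneg (dev_nonneg x)]; exact dev_le hq0 hq1 x) (by positivity)
      · refine (abs_sum_le_sum_abs _ _).trans (sum_le_sum fun k _ => ?_)
        rw [abs_mul]
        refine mul_le_mul ((abs_add_le _ _).trans (add_le_add le_rfl ?_)) (abs_dlt_le u g k)
          (abs_nonneg _) (add_nonneg (abs_nonneg _) (by positivity))
        rw [abs_mul]
        exact mul_le_mul_of_nonneg_right (hr k) (abs_nonneg _)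
  · have i1 : ∀ k : Idx m, Integrable (fun g : Idx m → ℝ => (|dcI v q k| + R k * |g k|) * 2)
        (gauss (Idx m)) := fun k =>
      ((integrable_const _).add ((integrable_eval k).abs.const_mul (R k))).mul_const 2
    exact ((integrable_const (cc * L)).add ((integrable_const (v * m / 2 * (4 * m))).add
      (integrable_finsetSum univ fun k _ => i1 k))).const_mul E

/-- The algebra of one step: completed squares, dropped signs and Young's inequality. -/
lemma drift_alg {ι : Type*} [Fintype ι] {d Pl P0 : ι → ℝ} {a cc lam β K0 L G G0 Yll Yl0 Y : ℝ}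
    (ha0 : 0 < a) (ha1 : a ≤ 1) (hlam : 0 < lam) (hcc : cc = 1 / (2 * lam)) (hβ0 : 0 ≤ β)
    (hβ1 : β ≤ 1) (hG0 : 0 ≤ G0) (hYll : 0 ≤ Yll) (hYl0 : 0 ≤ Yl0) (hY : 0 ≤ Y)
    (s1 : ∑ k, d k * Pl k = β / 2 * G + K0) (s2 : ∑ k, d k * P0 k = β / 2 * G0 + K0)
    (s3 : ∑ k, d k * (Pl k * Pl k) = β / 2 * Yll + K0)
    (s4 : ∑ k, d k * (Pl k * P0 k) = β / 2 * Yl0 + K0)
    (s5 : ∑ k, d k * (P0 k * P0 k) = β / 2 * Y + K0) :
    exp (a * L) * (-(cc * a) * L + a * (-β / 2 * G + ∑ k, d k * (Pl k - P0 k))) +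
      ∑ k, a * (d k / 2) * (exp (a * L) * (a * (Pl k - P0 k) ^ 2 - Pl k ^ 2 + P0 k ^ 2)) ≤
      cc * exp (a * lam * Y) := by
  set e := exp (a * L)
  have e1 : ∑ k, d k * (Pl k - P0 k) = ∑ k, d k * Pl k - ∑ k, d k * P0 k := by
    simp only [mul_sub, sum_sub_distrib]
  have e2 : ∑ k, a * (d k / 2) * (e * (a * (Pl k - P0 k) ^ 2 - Pl k ^ 2 + P0 k ^ 2)) =
      e * (a * ((a - 1) / 2 * ∑ k, d k * (Pl k * Pl k) - a * ∑ k, d k * (Pl k * P0 k) +
        (1 + a) / 2 * ∑ k, d k * (P0 k * P0 k))) := by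
    simp only [mul_sum, ← sum_sub_distrib, ← sum_add_distrib]
    exact sum_congr rfl fun k _ => by ring
  rw [e1, e2, s1, s2, s3, s4, s5]
  have he0 : 0 ≤ e := (exp_pos _).le
  have p1 : 0 ≤ e * (a * (β / 2 * G0)) := by positivity
  have p2 : 0 ≤ e * (a * ((1 - a) / 2 * (β / 2 * Yll))) :=
    mul_nonneg he0 (mul_nonneg ha0.le (mul_nonneg (by linarith) (by positivity)))
  have p3 : 0 ≤ e * (a * (a * (β / 2 * Yl0))) := by positivity
  have hc0 : 0 ≤ cc := by rw [hcc]; positivity
  have hy := mul_le_mul_of_nonneg_left (young_exp (a * L) (a * lam * Y)) hc0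
  have hcoef : a * ((1 + a) * β / 4) * (e * Y) = (1 + a) * β / (4 * lam) * (e * (a * lam * Y)) := by
    field_simp
  have hcc2 : (1 + a) * β / (4 * lam) ≤ cc := by
    rw [hcc, div_le_div_iff₀ (by positivity) (by positivity)]
    nlinarith [mul_le_mul (show 1 + a ≤ 2 by linarith) hβ1 hβ0 zero_le_two]
  have hmul : a * ((1 + a) * β / 4) * (e * Y) ≤ cc * (e * (a * lam * Y)) := by
    rw [hcoef]
    exact mul_le_mul_of_nonneg_right hcc2 (by positivity)
  linarith

/-- The derivative is at most a multiple of the moment. -/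
lemma integral_phiDer_le (hv : 0 ≤ v) (hvm : v * m ≤ 1) (hm : 0 < m) (hlam : 0 < lam)
    (hcc : cc = 1 / (2 * lam)) (hτ : 0 ≤ τ) (hq0 : 0 ≤ q) (hq1 : q ≤ 1) {s : ℝ}
    (h0 : 0 < s) (h1 : s < 1) :
    ∫ g, phiDer v τ q lam cc s g ∂gauss (Idx m) ≤ cc * phiI v τ q lam cc m s := by
  have hc0 : 0 ≤ cc := by rw [hcc]; positivity
  obtain ⟨ha0, ha1⟩ := aI_mem hc0 h0.le
  set a := aI cc s with ha
  set c := cI (m := m) v τ q s with hc
  set H : (Idx m → ℝ) → Conf m → ℝ := fun g => ham c g
  set K : (Idx m → ℝ) → Conf m → ℝ := fun g => hamL v τ q lam s g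
  set e : (Idx m → ℝ) → ℝ := fun g => exp (a * lI v τ q lam s g) with he
  set δ : (Idx m → ℝ) → Idx m → ℝ := fun g k => dlt v τ q lam s g k
  set L : (Idx m → ℝ) → ℝ := fun g => lI v τ q lam s g
  set β := v * m with hβ
  have hβ0 : 0 ≤ β := by positivity
  set T : (Idx m → ℝ) → Idx m → ℝ := fun g k =>
    a * δ g k ^ 2 - gAvg (K g) (sig k) ^ 2 + gAvg (H g) (sig k) ^ 2
  set A1 : (Idx m → ℝ) → ℝ := fun g =>
    e g * (-(cc * a) * L g + a * (-β / 2 * gAvg (K g) (dev q) + ∑ k, dcI v q k * δ g k))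
  set Y : (Idx m → ℝ) → ℝ := fun g => gAvg2 (H g) fun x y => dev q (cmul x y)
  have heC : Continuous e := (continuous_const.mul (continuous_lI s)).rexp
  have hδC : ∀ k, Continuous fun g => δ g k := fun k => continuous_dlt s k
  have hTC : ∀ k, Continuous fun g => T g k := fun k =>
    ((continuous_const.mul ((hδC k).pow 2)).sub ((continuous_gAvg_hamL s _).pow 2)).add
      ((continuous_gAvg_ham _ _).pow 2)
  set E := exp ((lam + v * m / 2) * (4 * m))
  have heB : ∀ g, e g ≤ E := fun g => (exp_lI_le hv hlam.le hc0 hq0 hq1 h0.le h1.le g).1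
  have hLB := fun g : Idx m → ℝ => (exp_lI_le (τ := τ) hv hlam.le hc0 hq0 hq1 h0.le h1.le g).2
  have intb : ∀ {F : (Idx m → ℝ) → ℝ}, Continuous F → ∀ (B : ℝ), (∀ g, |F g| ≤ B) →
      Integrable (fun g => e g * F g) (gauss (Idx m)) := fun {F} hF B hB =>
    integrable_gauss_bound (heC.mul hF) (B := E * B) fun g => by
      rw [abs_mul, abs_of_pos (exp_pos _)]
      exact mul_le_mul (heB g) (hB g) (abs_nonneg _) (exp_pos _).le
  have hTB : ∀ g k, |T g k| ≤ 6 := fun g k => by
    have c1 := (sq_le_one_iff_abs_le_one _).2 (abs_gAvg_le (v := K g) fun x => (abs_sig k x).le)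
    have c2 := (sq_le_one_iff_abs_le_one _).2 (abs_gAvg_le (v := H g) fun x => (abs_sig k x).le)
    have c3 : δ g k ^ 2 ≤ 4 := by
      rw [← sq_abs]; nlinarith [abs_dlt_le (v := v) (τ := τ) (q := q) (lam := lam) s g k,
        abs_nonneg (δ g k)]
    rw [abs_le]
    constructor <;> nlinarith [sq_nonneg (δ g k), sq_nonneg (gAvg (K g) (sig k)),
      sq_nonneg (gAvg (H g) (sig k))]
  have iT : ∀ k, Integrable (fun g => e g * T g k) (gauss (Idx m)) := fun k =>
    intb (hTC k) 6 fun g => hTB g k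
  have iδ : ∀ k, Integrable (fun g => g k * (e g * δ g k)) (gauss (Idx m)) := fun k =>
    ((integrable_eval k).bdd_mul (heC.mul (hδC k)).aestronglyMeasurable (c := E * 2)
      (ae_of_all _ fun g => by
        rw [norm_eq_abs]
        show |e g * δ g k| ≤ _
        rw [abs_mul, abs_of_pos (exp_pos _)]
        exact mul_le_mul (heB g) (abs_dlt_le s g k) (abs_nonneg _) (exp_pos _).le)).congr
      (ae_of_all _ fun g => mul_comm _ _)
  set r : Idx m → ℝ := fun k => dcI v q k / (2 * √(c k))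
  have hA1B : ∀ g, |-(cc * a) * L g + a * (-β / 2 * gAvg (K g) (dev q) + ∑ k, dcI v q k * δ g k)| ≤
      cc * ((lam + v * m / 2) * (4 * m)) + (β / 2 * (4 * m) + ∑ k, |dcI v q k| * 2) := fun g => by
    refine (abs_add_le _ _).trans (add_le_add ?_ ?_)
    · rw [abs_mul, abs_neg, abs_of_nonneg (mul_nonneg hc0 ha0.le), abs_of_nonneg (hLB g).1]
      exact mul_le_mul (mul_le_of_le_one_right hc0 ha1) (hLB g).2 (hLB g).1 hc0
    · rw [abs_mul, abs_of_pos ha0]
      refine (mul_le_of_le_one_left (abs_nonneg _) ha1).trans ((abs_add_le _ _).trans (add_le_add ?_ ?_))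
      · rw [abs_mul, show |-β / 2| = β / 2 by rw [neg_div, abs_neg, abs_of_nonneg (by positivity)]]
        exact mul_le_mul_of_nonneg_left (abs_gAvg_le fun x => by
          rw [abs_of_nonneg (dev_nonneg x)]; exact dev_le hq0 hq1 x) (by positivity)
      · refine (abs_sum_le_sum_abs _ _).trans (sum_le_sum fun k _ => ?_)
        rw [abs_mul]
        exact mul_le_mul_of_nonneg_left (abs_dlt_le s g k) (abs_nonneg _)
  have iA1 : Integrable A1 (gauss (Idx m)) := intb
    ((continuous_const.mul (continuous_lI s)).add (continuous_const.mul ((continuous_const.mul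
      (continuous_gAvg_hamL s _)).add (continuous_finsetSum _ fun k _ => continuous_const.mul (hδC k)))))
    _ hA1B
  have hibp : ∀ k, ∫ g, a * r k * (g k * (e g * δ g k)) ∂gauss (Idx m) =
      ∫ g, a * (dcI v q k / 2) * (e g * T g k) ∂gauss (Idx m) := by
    intro k
    rw [integral_const_mul]
    show a * r k * ∫ g, g k * (exp (a * lI v τ q lam s g) * dlt v τ q lam s g k) ∂gauss (Idx m) = _
    rw [ibp_dlt hv hlam.le hq0 hq1 h1.le ha0.le ha1 k, integral_const_mul, integral_const_mul]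
    have hrc : r k * √(c k) = dcI v q k / 2 := by
      simp only [r]
      by_cases hz : √(c k) = 0
      · have hcz : c k = 0 := le_antisymm (sqrt_eq_zero'.1 hz) (cI_nonneg hv hτ hq0 h0.le h1.le k)
        have := (hasDerivAt_sqrt_cI hv hτ hq0 h0 h1 k).continuousAt
        have hd : dcI v q k = 0 := by
          rcases k with e | i <;>
            simp only [hc, cI, dcI, cst, Sum.elim_inl, Sum.elim_inr] at hcz ⊢
          · exact (mul_eq_zero.1 hcz).resolve_left h0.ne'
          · have h2 : 0 ≤ (1 - s) * (v * m * q) := mul_nonneg (by linarith) (by positivity)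
            rw [(mul_eq_zero.1 (show (1 - s) * (v * m * q) = 0 by linarith)).resolve_left
              (by linarith), neg_zero]
        simp [hd]
      · field_simp
    show a * r k * (√(c k) * ∫ g, e g * T g k ∂gauss (Idx m)) = _
    rw [← mul_assoc, mul_assoc a, hrc]
  have hsplit : ∫ g, phiDer v τ q lam cc s g ∂gauss (Idx m) =
      ∫ g, (A1 g + ∑ k, a * (dcI v q k / 2) * (e g * T g k)) ∂gauss (Idx m) := by
    calc ∫ g, phiDer v τ q lam cc s g ∂gauss (Idx m)
        = ∫ g, (A1 g + ∑ k, a * r k * (g k * (e g * δ g k))) ∂gauss (Idx m) := by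
          refine integral_congr_ae (ae_of_all _ fun g => ?_)
          simp only [phiDer, A1, e, r, δ, L, K, hc, ha, hβ, add_mul, sum_add_distrib, mul_add, mul_sum]
          ring_nf
      _ = _ := by
          rw [integral_add iA1 (integrable_finsetSum _ fun k _ => (iδ k).const_mul _),
            integral_add iA1 (integrable_finsetSum _ fun k _ => (iT k).const_mul _),
            integral_finsetSum _ fun k _ => (iδ k).const_mul _,
            integral_finsetSum _ fun k _ => (iT k).const_mul _]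
          simp only [hibp]
  rw [hsplit]
  set kap := a * lam with hkap
  have hY : ∀ g, 0 ≤ Y g := fun g => le_gAvg2 fun x y => dev_nonneg _
  have hpt : ∀ g, A1 g + ∑ k, a * (dcI v q k / 2) * (e g * T g k) ≤ cc * exp (kap * Y g) := fun g =>
    drift_alg (Pl := fun k => gAvg (K g) (sig k)) (P0 := fun k => gAvg (H g) (sig k))
      ha0 ha1 hlam hcc hβ0 hvm
      (le_trans (gAvg_const (H g) 0).ge (gAvg_mono fun y => dev_nonneg _))
      (le_gAvg2 fun x y => dev_nonneg _)
      (le_trans (gAvg_const (K g) 0).ge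
        (gAvg_mono fun x => le_trans (gAvg_const (H g) 0).ge (gAvg_mono fun y => dev_nonneg _)))
      (hY g) (sum_dcI_gAvg hm _) (sum_dcI_gAvg hm _) (sum_dcI_cross hm _ _) (sum_dcI_cross hm _ _)
      (sum_dcI_cross hm _ _)
  have hYC : Continuous fun g => Y g := continuous_gAvg2_ham _ _
  have iY : Integrable (fun g => exp (kap * Y g)) (gauss (Idx m)) := by
    refine integrable_gauss_bound (continuous_const.mul hYC).rexp (B := exp (kap * (4 * m))) fun g => ?_
    rw [abs_of_pos (exp_pos _)]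
    exact exp_le_exp.2 (mul_le_mul_of_nonneg_left (gAvg2_le fun x y => dev_le hq0 hq1 _)
      (mul_nonneg ha0.le hlam.le))
  refine (integral_mono (iA1.add (integrable_finsetSum _ fun k _ => (iT k).const_mul _))
    (iY.const_mul cc) hpt).trans ?_
  rw [integral_const_mul]
  refine mul_le_mul_of_nonneg_left ?_ hc0
  have hb : ∀ x : Conf m, |exp (kap * dev q x)| ≤ exp (kap * (4 * m)) := fun x => by
    rw [abs_of_pos (exp_pos _)]
    exact exp_le_exp.2 (mul_le_mul_of_nonneg_left (dev_le hq0 hq1 _) (mul_nonneg ha0.le hlam.le))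
  calc ∫ g, exp (kap * Y g) ∂gauss (Idx m)
      ≤ ∫ g, gAvg2 (H g) (fun x y => exp (kap * dev q (cmul x y))) ∂gauss (Idx m) := by
        refine integral_mono iY (integrable_gauss_bound (continuous_gAvg2_ham _ _)
          (B := exp (kap * (4 * m))) fun g => abs_gAvg_le fun x => abs_gAvg_le fun y => hb _) fun g => ?_
        simp only [Y, gAvg2]
        rw [← gAvg_const_mul]
        refine (exp_gAvg_le _ _).trans (gAvg_mono fun x => ?_)
        rw [← gAvg_const_mul]
        exact exp_gAvg_le _ _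
    _ = ∫ g, gAvg (H g) (fun x => exp (kap * dev q x)) ∂gauss (Idx m) :=
        (nishimori c (cI_nonneg hv hτ hq0 h0.le h1.le) fun x => exp (kap * dev q x)).symm
    _ ≤ phiI v τ q lam cc m s := by
        refine integral_mono (integrable_gauss_bound (continuous_gAvg_ham _ _)
          (B := exp (kap * (4 * m))) fun g => abs_gAvg_le hb) (integrable_gauss_bound heC
            fun g => by rw [abs_of_pos (exp_pos _)]; exact heB g) fun g => ?_
        refine (gAvg_mono fun x => ?_).trans
          (gAvg_exp_mul_le (H g) (fun x => lamI v lam m s * dev q x) ha0.le ha1)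
        rw [hkap, mul_assoc]
        exact exp_le_exp.2 (mul_le_mul_of_nonneg_left
          (mul_le_mul_of_nonneg_right (lamI_bounds hv h0.le h1.le).1 (dev_nonneg x)) ha0.le)

/-- The interpolated moment at the end is at most `e^{cc}` times the one at the start. -/
theorem phiI_one_le (hv : 0 ≤ v) (hvm : v * m ≤ 1) (hm : 0 < m) (hlam : 0 < lam)
    (hcc : cc = 1 / (2 * lam)) (hτ : 0 ≤ τ) (hq0 : 0 ≤ q) (hq1 : q ≤ 1) :
    phiI v τ q lam cc m 1 ≤ exp cc * phiI v τ q lam cc m 0 := by
  have hc0 : 0 ≤ cc := by rw [hcc]; positivity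
  have hd : ∀ s : ℝ, HasDerivAt (fun s => exp (-(cc * s))) (-(cc * exp (-(cc * s)))) s := fun s => by
    refine (((hasDerivAt_id s).const_mul cc).neg.exp).congr_deriv ?_
    simp; ring
  have h := antitoneOn_of_hasDerivWithinAt_nonpos (convex_Icc (0:ℝ) 1)
    (f := fun s => exp (-(cc * s)) * phiI v τ q lam cc m s)
    (f' := fun s => exp (-(cc * s)) * (∫ g, phiDer v τ q lam cc s g ∂gauss (Idx m) -
      cc * phiI v τ q lam cc m s))
    ((by fun_prop : Continuous fun s => exp (-(cc * s))).continuousOn.mul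
      (continuousOn_phiI hv hlam.le hc0 hq0 hq1))
    (fun s hs => by
      rw [interior_Icc] at hs
      refine (((hd s).fun_mul (hasDerivAt_phiI hv hlam.le hc0 hτ hq0 hq1 hs.1 hs.2)).congr_deriv
        ?_).hasDerivWithinAt
      ring)
    (fun s hs => by
      rw [interior_Icc] at hs
      exact mul_nonpos_of_nonneg_of_nonpos (exp_pos _).le
        (sub_nonpos.2 (integral_phiDer_le hv hvm hm hlam hcc hτ hq0 hq1 hs.1 hs.2)))
    (Set.left_mem_Icc.2 zero_le_one) (Set.right_mem_Icc.2 zero_le_one) zero_le_one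
  simp only [mul_one, mul_zero, neg_zero, exp_zero, one_mul, exp_neg] at h
  rwa [← div_eq_inv_mul, div_le_iff₀ (exp_pos _), mul_comm] at h

end Vale.Agent.P150.Weak.Ov
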