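import Vale.Agent.P150.Guerra
import Vale.Agent.P150.Gap.Goe

/-!
One planted spin: the fixed point of the magnetisation, and sub-Gaussian bounds for biased spins.
-/

open MeasureTheory ProbabilityTheory Real Finset Set

namespace Vale.Agent.P150.Weak.Ov

/-- `E tanh (γ + √γ z)`. -/
noncomputable def hq (γ : ℝ) : ℝ := ∫ t, tanh (γ + √γ * t) ∂gaussianReal 0 1

lemma continuous_tanh' : Continuous tanh :=
  continuous_iff_continuousAt.2 fun y => (hasDerivAt_tanh' y).continuousAt

lemma integrable_tanh_affine (x y : ℝ) :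
    Integrable (fun t => tanh (x + y * t)) (gaussianReal 0 1) :=
  Integrable.of_bound (continuous_tanh'.comp (by fun_prop)).aestronglyMeasurable 1
    (ae_of_all _ fun _ => by rw [norm_eq_abs]; exact (abs_tanh_lt_one _).le)

lemma continuous_hq : Continuous hq :=
  continuous_of_dominated (bound := fun _ => 1)
    (fun γ => (continuous_tanh'.comp (by fun_prop)).aestronglyMeasurable)
    (fun γ => ae_of_all _ fun t => by rw [norm_eq_abs]; exact (abs_tanh_lt_one _).le)
    (integrable_const _) (ae_of_all _ fun t => continuous_tanh'.comp (by fun_prop))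

lemma hq_le_one (γ : ℝ) : hq γ ≤ 1 :=
  (integral_mono (integrable_tanh_affine _ _) (integrable_const _)
    fun t => (abs_lt.1 (abs_tanh_lt_one _)).2.le).trans_eq (by simp)

lemma integral_tanh_mul (y : ℝ) : ∫ t, tanh (y * t) ∂gaussianReal 0 1 = 0 := by
  have h : ∫ t, tanh (y * t) ∂gaussianReal 0 1 = ∫ t, tanh (y * -t) ∂gaussianReal 0 1 := by
    conv_lhs => rw [← neg_zero, ← gaussianReal_map_neg]
    exact integral_map (by fun_prop) (continuous_tanh'.comp (by fun_prop)).aestronglyMeasurable
  simp only [mul_neg, tanh_neg, integral_neg] at h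
  linarith

lemma hq_eq (γ : ℝ) :
    hq γ = ∫ t, (tanh (γ + √γ * t) - tanh (√γ * t)) ∂gaussianReal 0 1 := by
  have h := integrable_tanh_affine 0 √γ
  simp only [zero_add] at h
  rw [integral_sub (integrable_tanh_affine _ _) h, integral_tanh_mul, sub_zero, hq]

lemma strictMono_tanh' : StrictMono tanh :=
  strictMono_of_hasDerivAt_pos hasDerivAt_tanh' fun y => by
    have := abs_tanh_lt_one y
    nlinarith [sq_abs (tanh y), abs_nonneg (tanh y)]

lemma hq_nonneg {γ : ℝ} (h : 0 ≤ γ) : 0 ≤ hq γ := by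
  rw [hq_eq]
  exact integral_nonneg fun t => sub_nonneg.2 (strictMono_tanh'.monotone (by linarith))

lemma hq_pos {γ : ℝ} (h : 0 < γ) : 0 < hq γ := by
  rw [hq_eq]
  have hp : ∀ t, 0 < tanh (γ + √γ * t) - tanh (√γ * t) := fun t =>
    sub_pos.2 (strictMono_tanh' (by linarith))
  have hi := integrable_tanh_affine 0 √γ
  simp only [zero_add] at hi
  refine (integral_pos_iff_support_of_nonneg (fun t => (hp t).le)
    ((integrable_tanh_affine _ _).sub hi)).2 ?_
  rw [Function.support_eq_univ fun t => (hp t).ne', measure_univ]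
  exact one_pos

lemma tanh_sub_le {x y : ℝ} (h : x ≤ y) : tanh y - tanh x ≤ y - x := by
  have hm : Antitone fun t => tanh t - t :=
    antitone_of_hasDerivAt_nonpos (fun t => (hasDerivAt_tanh' t).sub (hasDerivAt_id t))
      fun t => by show 1 - tanh t ^ 2 - 1 ≤ 0; nlinarith
  have := hm h
  simp only at this
  linarith

lemma hq_le {γ : ℝ} (h : 0 ≤ γ) : hq γ ≤ γ := by
  rw [hq_eq]
  have hi := integrable_tanh_affine 0 √γ
  simp only [zero_add] at hi
  refine (integral_mono ((integrable_tanh_affine _ _).sub hi) (integrable_const γ) fun t => ?_).trans_eq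
    (by simp)
  have := tanh_sub_le (x := √γ * t) (y := γ + √γ * t) (by linarith)
  simp only [Pi.sub_apply]
  linarith

/-- The fixed point `q = hq (τ + β q)`. -/
lemma exists_fixed {τ β : ℝ} (hτ : 0 ≤ τ) :
    ∃ q, 0 ≤ q ∧ q ≤ 1 ∧ q = hq (τ + β * q) := by
  have hc : ContinuousOn (fun q => q - hq (τ + β * q)) (Icc 0 1) :=
    (continuous_id.sub (continuous_hq.comp (by fun_prop))).continuousOn
  have h0 : (0:ℝ) ∈ Icc (0 - hq (τ + β * 0)) (1 - hq (τ + β * 1)) :=
    ⟨by have := hq_nonneg (γ := τ + β * 0) (by simpa using hτ); linarith,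
      by have := hq_le_one (τ + β * 1); linarith⟩
  obtain ⟨q, hq', he⟩ := intermediate_value_Icc zero_le_one hc h0
  simp only at he
  exact ⟨q, hq'.1, hq'.2, by linarith⟩

/-- Hoeffding's bound for a spin of mean `q`. -/
lemma spin_mgf {q : ℝ} (hq : |q| ≤ 1) (t : ℝ) :
    (1 + q) / 2 * exp t + (1 - q) / 2 * exp (-t) ≤ exp (t * q + t ^ 2 / 2) := by
  rcases eq_or_lt_of_le hq with h | h
  · rcases abs_eq zero_le_one |>.1 h with rfl | rfl
    · norm_num; nlinarith [sq_nonneg t]
    · norm_num; nlinarith [sq_nonneg t]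
  obtain ⟨h1, h2⟩ := abs_lt.1 h
  set A : ℝ → ℝ := fun s => (1 + q) / 2 * exp s + (1 - q) / 2 * exp (-s) with hA
  set B : ℝ → ℝ := fun s => (1 + q) / 2 * exp s - (1 - q) / 2 * exp (-s) with hB
  have hpos : ∀ s, 0 < A s := fun s =>
    add_pos (mul_pos (by linarith) (exp_pos _)) (mul_pos (by linarith) (exp_pos _))
  have hAd : ∀ s, HasDerivAt A (B s) s := fun s => by
    refine (((hasDerivAt_exp s).const_mul _).add
      (((hasDerivAt_id s).neg.exp).const_mul _)).congr_deriv ?_
    simp [hB]; ring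
  have hBd : ∀ s, HasDerivAt B (A s) s := fun s => by
    refine (((hasDerivAt_exp s).const_mul _).sub
      (((hasDerivAt_id s).neg.exp).const_mul _)).congr_deriv ?_
    simp [hA]
  set f : ℝ → ℝ := fun s => log (A s) - s * q - s ^ 2 / 2 with hf
  set f' : ℝ → ℝ := fun s => B s / A s - q - s with hf'
  have hfd : ∀ s, HasDerivAt f (f' s) s := fun s => by
    refine ((((hAd s).log (hpos s).ne').sub ((hasDerivAt_id s).mul_const q)).sub
      ((hasDerivAt_pow 2 s).div_const 2)).congr_deriv ?_
    simp [hf']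
  have hf'd : ∀ s, HasDerivAt f' (-(B s / A s) ^ 2) s := fun s => by
    refine ((((hBd s).div (hAd s) (hpos s).ne').sub_const q).sub (hasDerivAt_id s)).congr_deriv ?_
    have := (hpos s).ne'
    field_simp
    ring
  have hanti : Antitone f' := antitone_of_hasDerivAt_nonpos hf'd fun s => by
    show -(B s / A s) ^ 2 ≤ 0
    exact neg_nonpos.2 (sq_nonneg _)
  have hA0 : A 0 = 1 := by simp [hA]; ring
  have hB0 : B 0 = q := by simp [hB]; ring
  have h0 : f' 0 = 0 := by simp [hf', hA0, hB0]
  have hft : f t ≤ 0 := by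
    have e0 : f 0 = 0 := by simp [hf, hA0]
    rw [← e0]
    rcases le_total t 0 with ht | ht
    · refine (monotoneOn_of_hasDerivWithinAt_nonneg (D := Iic 0) (f' := f') (convex_Iic 0)
        (fun s _ => (hfd s).continuousAt.continuousWithinAt) (fun s _ => (hfd s).hasDerivWithinAt)
        fun s hs => ?_) ht Set.self_mem_Iic ht
      rw [interior_Iic] at hs
      rw [← h0]
      exact hanti hs.le
    · refine (antitoneOn_of_hasDerivWithinAt_nonpos (D := Ici 0) (f' := f') (convex_Ici 0)
        (fun s _ => (hfd s).continuousAt.continuousWithinAt) (fun s _ => (hfd s).hasDerivWithinAt)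
        fun s hs => ?_) Set.self_mem_Ici ht ht
      rw [interior_Ici] at hs
      rw [← h0]
      exact hanti hs.le
  calc A t = exp (log (A t)) := (exp_log (hpos t)).symm
    _ ≤ _ := exp_le_exp.2 (by simp only [hf] at hft; linarith)

/-- The exponential square moment of a sum of independent biased spins. -/
lemma bias_exp_sq {m : ℕ} {q lam : ℝ} (hm : 0 < m) (hq : |q| ≤ 1) (h0 : 0 ≤ lam) (h1 : lam < 1 / 2) :
    ∑ x : Conf m, (∏ i, (1 + q * spin x i) / 2) *
      exp (lam * (((∑ i, spin x i) - m * q) ^ 2 / m)) ≤ (√(1 - 2 * lam))⁻¹ := by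
  have hm' : (0:ℝ) < m := Nat.cast_pos.2 hm
  set r := √(2 * lam / m) with hr
  have hr2 : r ^ 2 = 2 * lam / m := sq_sqrt (by positivity)
  set p : Conf m → ℝ := fun x => ∏ i, (1 + q * spin x i) / 2
  set X : Conf m → ℝ := fun x => (∑ i, spin x i) - m * q
  have hgauss : ∀ x, exp (lam * (X x ^ 2 / m)) = ∫ g, exp (r * X x * g) ∂gaussianReal 0 1 := by
    intro x
    have h := congrFun (mgf_id_gaussianReal (μ := 0) (v := 1)) (r * X x)
    simp only [mgf, id] at h
    rw [h, mul_pow, hr2]
    congr 1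
    field_simp
    norm_num
    ring
  have hi : ∀ x, Integrable (fun g => p x * exp (r * X x * g)) (gaussianReal 0 1) := fun x =>
    (integrable_exp_mul_gaussianReal _).const_mul _
  show ∑ x, p x * exp (lam * (X x ^ 2 / m)) ≤ _
  simp only [hgauss, ← integral_const_mul]
  rw [← integral_finsetSum _ fun x _ => hi x, ← Gap.integral_exp_sq h1]
  refine integral_mono (integrable_finsetSum _ fun x _ => hi x) (Gap.integrable_exp_sq h1) fun g => ?_
  have e : ∀ x, p x * exp (r * X x * g) =
      exp (-(r * g * (m * q))) *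
        ∏ i, (if x i then (1 + q) / 2 * exp (r * g) else (1 - q) / 2 * exp (-(r * g))) := by
    intro x
    have e1 : exp (r * X x * g) = exp (-(r * g * (m * q))) * ∏ i, exp (r * g * spin x i) := by
      rw [← exp_sum, ← exp_add, ← Finset.mul_sum]
      simp only [X]; ring_nf
    rw [e1, ← mul_assoc, mul_comm (p x), mul_assoc, ← prod_mul_distrib]
    congr 1
    refine prod_congr rfl fun i _ => ?_
    unfold spin
    split_ifs <;> ring_nf
  simp only [e, ← Finset.mul_sum]
  rw [← Fintype.prod_sum fun (_ : Fin m) (a : Bool) =>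
    if a then (1 + q) / 2 * exp (r * g) else (1 - q) / 2 * exp (-(r * g))]
  simp only [Fintype.sum_bool, if_true, Bool.false_eq_true, if_false, prod_const, card_univ,
    Fintype.card_fin]
  have hb0 : 0 ≤ (1 + q) / 2 * exp (r * g) + (1 - q) / 2 * exp (-(r * g)) := by
    obtain ⟨a, b⟩ := abs_le.1 hq
    exact add_nonneg (mul_nonneg (by linarith) (exp_pos _).le)
      (mul_nonneg (by linarith) (exp_pos _).le)
  refine (mul_le_mul_of_nonneg_left (pow_le_pow_left₀ hb0 (spin_mgf hq _) m)
    (exp_pos _).le).trans_eq ?_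
  rw [← exp_nat_mul, ← exp_add, mul_pow, hr2]
  congr 1
  field_simp
  ring

end Vale.Agent.P150.Weak.Ov
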