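import Vale.Agent.P150.Weak.Spec
import Vale.Agent.P150.Weak.Overlap.Scalar
import Vale.Agent.P150.Weak.Overlap.Gronwall

/-!
Overlap moments of the planted family for every `b < 1`: the specifications `OverlapSpec` and
`CenterSpec`.
-/

open MeasureTheory ProbabilityTheory Real Finset Filter
open scoped Topology

namespace Vale.Agent.P150.Weak.Ov

open Gap

variable {m : ℕ} {v τ q lam cc : ℝ}

/-- The law of a spin under a Gaussian field. -/
lemma integral_site (γ : ℝ) (σ : Bool) :
    ∫ t, exp ((γ + √γ * t) * (if σ then 1 else -1)) / (2 * cosh (γ + √γ * t)) ∂gaussianReal 0 1 =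
      (1 + hq γ * (if σ then 1 else -1)) / 2 := by
  have e : ∀ y : ℝ, exp (y * (if σ then 1 else -1)) / (2 * cosh y) =
      (1 + tanh y * (if σ then 1 else -1)) / 2 := by
    intro y
    have := (cosh_pos y).ne'
    rw [tanh_eq_sinh_div_cosh]
    cases σ
    · simp only [Bool.false_eq_true, if_false, mul_neg_one]
      field_simp
      rw [cosh_eq, sinh_eq]; ring
    · simp only [if_true, mul_one]
      field_simp
      rw [cosh_eq, sinh_eq]; ring
  simp only [e]
  rw [integral_div, integral_add (integrable_const _) ((integrable_tanh_affine _ _).mul_const _),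
    integral_mul_const]
  simp [hq]

lemma phiI_zero_le (hv : 0 ≤ v) (hm : 0 < m) (hq0 : 0 ≤ q) (hq1 : q ≤ 1)
    (hfix : q = hq (τ + v * m * q)) (hlam : 0 ≤ lam) (hl : lam + v * m / 2 < 1 / 2) :
    phiI v τ q lam cc m 0 ≤ (√(1 - 2 * (lam + v * m / 2)))⁻¹ := by
  set γ := τ + v * m * q with hγ
  set l := lam + v * m / 2 with hl'
  set f : Conf m → ℝ := fun x => exp (l * dev q x) with hf
  have h0 : ∀ g : Idx m → ℝ, exp (aI cc 0 * lI v τ q lam 0 g) =
      ∑ x : Conf m, (∏ i, exp ((γ + √γ * g (.inr i)) * spin x i) /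
        (2 * cosh (γ + √γ * g (.inr i)))) * f x := by
    intro g
    have hH : ∀ x, ham (cI v τ q 0) g x = ∑ i, (γ + √γ * g (.inr i)) * spin x i := fun x => by
      simp [ham, cI, cst, sig, hγ]
    have hZ : ∑ x, exp (ham (cI v τ q 0) g x) = ∏ i, 2 * cosh (γ + √γ * g (.inr i)) := by
      simp only [hH, exp_sum, spin]
      rw [← Fintype.prod_sum fun (i : Fin m) (a : Bool) =>
        exp ((γ + √γ * g (.inr i)) * if a then 1 else -1)]
      refine prod_congr rfl fun i _ => ?_
      simp [cosh_eq]; ring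
    rw [show aI cc 0 * lI v τ q lam 0 g = lse (fun x => ham (cI v τ q 0) g x + l * dev q x) -
      lse (ham (cI v τ q 0) g) by
        simp only [aI, mul_zero, neg_zero, exp_zero, one_mul, lI]
        congr 2
        funext x
        simp [hamL, lamI, hl'], ← gAvg_exp, gAvg, hZ, Finset.sum_div]
    refine sum_congr rfl fun x _ => ?_
    rw [hH, exp_sum, Finset.prod_div_distrib]
    ring
  have hmarg : phiI v τ q lam cc m 0 = ∫ u, ∑ x : Conf m, (∏ i, exp ((γ + √γ * u i) * spin x i) /
      (2 * cosh (γ + √γ * u i))) * f x ∂gauss (Fin m) := by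
    simp only [phiI, h0]
    exact integral_comp_mp gauss_inr (F := fun u => ∑ x : Conf m,
      (∏ i, exp ((γ + √γ * u i) * spin x i) / (2 * cosh (γ + √γ * u i))) * f x)
      (continuous_finsetSum _ fun x _ => (continuous_finsetProd _ fun i _ =>
        Continuous.div₀ (by fun_prop) (by fun_prop) fun u =>
          (mul_pos two_pos (cosh_pos _)).ne').mul continuous_const).aestronglyMeasurable
  have hint : ∀ (σ : Bool), Integrable
      (fun t => exp ((γ + √γ * t) * (if σ then 1 else -1)) / (2 * cosh (γ + √γ * t)))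
      (gaussianReal 0 1) := fun σ => by
    refine Integrable.of_bound (Continuous.div₀ (by fun_prop) (by fun_prop)
      fun t => (mul_pos two_pos (cosh_pos _)).ne').aestronglyMeasurable 1 (ae_of_all _ fun t => ?_)
    rw [norm_eq_abs, abs_of_pos (by positivity), div_le_one (mul_pos two_pos (cosh_pos _)), cosh_eq]
    have h1 := exp_pos (γ + √γ * t)
    have h2 := exp_pos (-(γ + √γ * t))
    cases σ
    · simp only [Bool.false_eq_true, if_false, mul_neg_one]; linarith
    · simp only [if_true, mul_one]; linarith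
  have hi : ∀ x : Conf m, Integrable (fun u : Fin m → ℝ =>
      (∏ i, exp ((γ + √γ * u i) * spin x i) / (2 * cosh (γ + √γ * u i))) * f x) (gauss (Fin m)) :=
    fun x => (Integrable.fintype_prod fun i => hint (x i)).mul_const _
  rw [hmarg, integral_finsetSum _ fun x _ => hi x]
  simp only [integral_mul_const]
  refine le_trans (le_of_eq (sum_congr rfl fun x _ => ?_))
    (bias_exp_sq (q := q) hm (abs_le.2 ⟨by linarith, hq1⟩)
      (add_nonneg hlam (by positivity)) hl)
  rw [gauss, integral_fintype_prod_eq_prod fun i t =>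
    exp ((γ + √γ * t) * spin x i) / (2 * cosh (γ + √γ * t))]
  congr 1
  exact prod_congr rfl fun i _ => by rw [hfix]; exact integral_site γ (x i)

/-- The exponential overlap moment of the planted family. -/
theorem overlap_exp_le {b : ℝ} (hb1 : b < 1) (hb0 : 0 < b) {n : ℕ} (hm : 0 < m) (hmn : m ≤ n)
    (hτ : 0 ≤ τ) (hq0 : 0 ≤ q) (hq1 : q ≤ 1) (hfix : q = hq (τ + b ^ 2 / n * m * q)) :
    pEv b n m τ (fun J u => ev J u fun x => exp ((1 - b ^ 2) / 4 * exp (-(2 / (1 - b ^ 2))) / m *
        ((∑ i, spin x i) - m * q) ^ 2)) ≤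
      exp (2 / (1 - b ^ 2)) * (√((1 - b ^ 2) / 2))⁻¹ := by
  have hb2 : b ^ 2 < 1 := by nlinarith
  set lam := (1 - b ^ 2) / 4 with hlam
  set cc := 2 / (1 - b ^ 2) with hcc
  have hlam0 : 0 < lam := by linarith
  have hcc' : cc = 1 / (2 * lam) := by
    rw [hcc, hlam]; field_simp; ring
  set v := b ^ 2 / (n:ℝ) with hv
  have hn : (0:ℝ) < n := Nat.cast_pos.2 (hm.trans_le hmn)
  have hv0 : 0 ≤ v := by positivity
  have hvm : v * m ≤ b ^ 2 := by
    rw [hv, div_mul_eq_mul_div, div_le_iff₀ hn]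
    exact mul_le_mul_of_nonneg_left (Nat.cast_le.2 hmn) (sq_nonneg b)
  have hc1 : cI v τ q 1 = cst (m := m) v τ := by simp [cI]
  have h1 : pEv b n m τ (fun J u => ev J u fun x => exp (lam * exp (-cc) / m *
      ((∑ i, spin x i) - m * q) ^ 2)) ≤ phiI v τ q lam cc m 1 := by
    rw [pEv_eq, ← hv]
    have ha : aI cc 1 = exp (-cc) := by simp [aI]
    have hcont := continuous_gAvg_ham (m := m) (cst v τ)
      fun x => exp (lam * exp (-cc) / m * ((∑ i, spin x i) - m * q) ^ 2)
    refine integral_mono (integrable_gauss_bound hcont fun g => abs_gAvg_le fun x =>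
      single_le_sum (f := fun x : Conf m =>
        |exp (lam * exp (-cc) / m * ((∑ i, spin x i) - m * q) ^ 2)|)
        (fun y _ => abs_nonneg _) (mem_univ x))
      (integrable_gauss_bound (continuous_const.mul (continuous_lI 1)).rexp fun g => by
        rw [abs_of_pos (exp_pos _)]
        exact (exp_lI_le hv0 hlam0.le (by rw [hcc']; positivity) hq0 hq1 zero_le_one le_rfl g).1)
      fun g => ?_
    refine le_trans (le_of_eq ?_) (gAvg_exp_mul_le (ham (cI v τ q 1) g)
      (fun x => lamI v lam m 1 * dev q x) (exp_pos _).le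
      (aI_mem (by rw [hcc']; positivity) zero_le_one).2)
    simp only [hc1, ha, lamI, sub_self, zero_mul, zero_div, add_zero, dev, tot]
    congr 1
    funext x
    ring_nf
  have hll : lam + v * m / 2 ≤ (1 + b ^ 2) / 4 := by linarith
  refine h1.trans ((phiI_one_le hv0 (hvm.trans hb2.le) hm hlam0 hcc' hτ hq0 hq1).trans
    (mul_le_mul_of_nonneg_left ((phiI_zero_le hv0 hm hq0 hq1 hfix hlam0.le (by linarith)).trans
      (inv_anti₀ (sqrt_pos.2 (by linarith)) (sqrt_le_sqrt (by linarith)))) (exp_pos _).le))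

/-- The mean overlap with the planted configuration, a solution of `q = hq (τ + b² m n⁻¹ q)`. -/
noncomputable def qfix (b : ℝ) (n m : ℕ) (τ : ℝ) : ℝ :=
  if h : 0 ≤ τ then (exists_fixed (β := b ^ 2 / n * m) h).choose else 0

lemma qfix_spec (b : ℝ) (n m : ℕ) {τ : ℝ} (h : 0 ≤ τ) :
    0 ≤ qfix b n m τ ∧ qfix b n m τ ≤ 1 ∧
      qfix b n m τ = hq (τ + b ^ 2 / n * m * qfix b n m τ) := by
  rw [qfix, dif_pos h]
  exact (exists_fixed (β := b ^ 2 / n * m) h).choose_spec

/-- The rate of the exponential moment. -/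
noncomputable def kov (b : ℝ) : ℝ := (1 - b ^ 2) / 4 * exp (-(2 / (1 - b ^ 2)))

/-- The bound of the exponential moment. -/
noncomputable def cov (b : ℝ) : ℝ := exp (2 / (1 - b ^ 2)) * (√((1 - b ^ 2) / 2))⁻¹

lemma kov_pos {b : ℝ} (hb1 : b < 1) (hb0 : 0 < b) : 0 < kov b :=
  mul_pos (by nlinarith) (exp_pos _)

/-- The centred overlap of the two replicas. -/
noncomputable def cov12 (b : ℝ) (n : ℕ) (τ : ℝ) (x y : Conf m) : ℝ :=
  tot (cmul x y) - m * qfix b n m τ

lemma cst_nonneg {v τ : ℝ} (hv : 0 ≤ v) (hτ : 0 ≤ τ) (k : Idx m) : 0 ≤ cst v τ k := by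
  rcases k with e | i <;> simp [cst, hv, hτ]

lemma integrable_gAvg_fin (c : Idx m → ℝ) (f : Conf m → ℝ) :
    Integrable (fun g => gAvg (ham c g) f) (gauss (Idx m)) :=
  integrable_gauss_bound (continuous_gAvg_ham _ _) fun _ => abs_gAvg_le fun x =>
    single_le_sum (f := fun x => |f x|) (fun _ _ => abs_nonneg _) (mem_univ x)

lemma integrable_gAvg2_fin (c : Idx m → ℝ) (φ : Conf m → Conf m → ℝ) :
    Integrable (fun g => gAvg2 (ham c g) φ) (gauss (Idx m)) :=
  integrable_gauss_bound (continuous_gAvg2_ham _ _) fun _ => abs_gAvg_le fun x =>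
    (abs_gAvg_le fun y => single_le_sum (f := fun y => |φ x y|) (fun _ _ => abs_nonneg _)
      (mem_univ y)).trans (single_le_sum (f := fun x => ∑ y, |φ x y|)
        (fun _ _ => sum_nonneg fun _ _ => abs_nonneg _) (mem_univ x))

variable {b : ℝ} {n : ℕ}

lemma pair_exp_le (hb1 : b < 1) (hb0 : 0 < b) (hm : 0 < m) (hmn : m ≤ n) (hτ : 0 ≤ τ) :
    ∫ g, gAvg2 (ham (cst (b ^ 2 / n) τ) g)
      (fun x y => exp (kov b / m * cov12 (m := m) b n τ x y ^ 2)) ∂gauss (Idx m) ≤ cov b := by
  obtain ⟨h0, h1, h2⟩ := qfix_spec b n m hτ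
  have h := overlap_exp_le hb1 hb0 hm hmn hτ h0 h1 h2
  rw [pEv_eq, nishimori _ (cst_nonneg (by positivity) hτ)] at h
  exact h

lemma abs_pow_le {x κ : ℝ} {m p : ℕ} (hκ : 0 < κ) (hm : 0 < m) (hp : 1 ≤ p) :
    |x| ^ p ≤ √((p:ℝ) * m / (2 * κ)) ^ p * exp (κ / m * x ^ 2) := by
  have hp' : (0:ℝ) < p := Nat.cast_pos.2 hp
  have hm' : (0:ℝ) < m := Nat.cast_pos.2 hm
  set z := κ / m * x ^ 2
  have h : x ^ 2 ≤ (p:ℝ) * m / (2 * κ) * exp (2 * z / p) := by
    have h1 : x ^ 2 = (p:ℝ) * m / (2 * κ) * (2 * z / p) := by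
      simp only [z]; field_simp
    rw [h1]
    exact mul_le_mul_of_nonneg_left (by linarith [add_one_le_exp (2 * z / p)]) (by positivity)
  calc |x| ^ p = √(x ^ 2) ^ p := by rw [sqrt_sq_eq_abs]
    _ ≤ √((p:ℝ) * m / (2 * κ) * exp (2 * z / p)) ^ p :=
        pow_le_pow_left₀ (sqrt_nonneg _) (sqrt_le_sqrt h) p
    _ = √((p:ℝ) * m / (2 * κ)) ^ p * exp z := by
        rw [sqrt_mul (by positivity), mul_pow, ← exp_half, ← exp_nat_mul]
        congr 2
        field_simp

lemma moment_le (hb1 : b < 1) (hb0 : 0 < b) (hm : 0 < m) (hmn : m ≤ n) (hτ : 0 ≤ τ) {p : ℕ}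
    (hp : 1 ≤ p) :
    ∫ g, gAvg2 (ham (cst (b ^ 2 / n) τ) g)
      (fun x y => |cov12 (m := m) b n τ x y| ^ p) ∂gauss (Idx m) ≤
      (max 1 (cov b) * √((p:ℝ) * n / (2 * kov b))) ^ p := by
  have hk := kov_pos hb1 hb0
  set A := √((p:ℝ) * m / (2 * kov b)) ^ p
  have h1 : ∫ g, gAvg2 (ham (cst (b ^ 2 / n) τ) g)
      (fun x y => |cov12 (m := m) b n τ x y| ^ p) ∂gauss (Idx m) ≤
      A * ∫ g, gAvg2 (ham (cst (b ^ 2 / n) τ) g)
      (fun x y => exp (kov b / m * cov12 (m := m) b n τ x y ^ 2)) ∂gauss (Idx m) := by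
    rw [← integral_const_mul]
    refine integral_mono (integrable_gAvg2_fin _ _) ((integrable_gAvg2_fin _ _).const_mul _) fun g => ?_
    simp only [gAvg2]
    rw [← gAvg_const_mul]
    refine gAvg_mono fun x => ?_
    rw [← gAvg_const_mul]
    exact gAvg_mono fun y => abs_pow_le hk hm hp
  refine h1.trans ?_
  rw [mul_pow, mul_comm]
  refine mul_le_mul ((pair_exp_le hb1 hb0 hm hmn hτ).trans ((le_max_right 1 _).trans
    (le_self_pow₀ (le_max_left 1 _) (by omega)))) (pow_le_pow_left₀ (sqrt_nonneg _) (sqrt_le_sqrt ?_) p)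
    (by positivity) (by positivity)
  gcongr

/-- `OverlapSpec` for every `b < 1`. -/
theorem _root_.Vale.Agent.P150.Weak.overlapSpec (b : ℝ) (hb0 : 0 < b) (hb1 : b < 1) : OverlapSpec b := by
  have hb2 : b ^ 2 < 1 := by nlinarith
  refine ⟨kov b, cov b, qfix b, kov_pos hb1 hb0, fun n m τ hτ hm hmn => ?_, fun η Tm hη => ?_,
    fun ε hε => ?_⟩
  · obtain ⟨h0, h1, h2⟩ := qfix_spec b n m hτ
    refine ⟨h0, h1, ?_, overlap_exp_le hb1 hb0 hm hmn hτ h0 h1 h2⟩
    have hn : (0:ℝ) < n := Nat.cast_pos.2 (hm.trans_le hmn)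
    have hγ : 0 ≤ τ + b ^ 2 / n * m * qfix b n m τ := by positivity
    have h3 := hq_le hγ
    rw [← h2] at h3
    have h4 : b ^ 2 / n * m * qfix b n m τ ≤ b ^ 2 * qfix b n m τ := by
      refine mul_le_mul_of_nonneg_right ?_ h0
      rw [div_mul_eq_mul_div, div_le_iff₀ hn]
      exact mul_le_mul_of_nonneg_left (Nat.cast_le.2 hmn) (sq_nonneg b)
    rw [le_div_iff₀ (by linarith)]
    linarith
  · by_cases hT : η ≤ Tm
    · obtain ⟨x, hx, hmin⟩ := isCompact_Icc.exists_isMinOn
        (Set.nonempty_Icc.2 (show η ≤ Tm + 1 by linarith)) continuous_hq.continuousOn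
      refine ⟨hq x, hq_pos (hη.trans_le hx.1), fun n m τ h1 h2 hm hmn => ?_⟩
      obtain ⟨h0, hq1, he⟩ := qfix_spec b n m (hη.le.trans h1)
      rw [he]
      refine hmin ⟨le_add_of_le_of_nonneg h1 (by positivity), ?_⟩
      have hn : (0:ℝ) < n := Nat.cast_pos.2 (hm.trans_le hmn)
      have h3 : b ^ 2 / n * m * qfix b n m τ ≤ 1 := by
        refine mul_le_one₀ ?_ h0 hq1
        rw [div_mul_eq_mul_div, div_le_iff₀ hn, one_mul]
        exact (mul_le_of_le_one_left (Nat.cast_nonneg m) hb2.le).trans (Nat.cast_le.2 hmn)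
      linarith
    · exact ⟨1, one_pos, fun n m τ h1 h2 => absurd (h1.trans h2) hT⟩
  · refine ⟨cov b, kov b * ε ^ 2, mul_pos (kov_pos hb1 hb0) (by positivity),
      fun n m τ hτ hm hmn => ?_⟩
    have hk := kov_pos hb1 hb0
    have hm' : (0:ℝ) < m := Nat.cast_pos.2 hm
    have hmn' : (m:ℝ) ≤ n := Nat.cast_le.2 hmn
    set E := fun g : Idx m → ℝ => gAvg2 (ham (cst (b ^ 2 / n) τ) g)
      (fun x y => exp (kov b / m * cov12 (m := m) b n τ x y ^ 2)) with hE
    have hsub : {g : Idx m → ℝ | ε * n ≤ |sq1 (mg (plJ (b ^ 2 / n) g) (plU τ g)) - m * qfix b n m τ|}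
        ⊆ {g | exp (kov b * ε ^ 2 * n) ≤ E g} := by
      intro g hg
      simp only [Set.mem_ofPred_eq] at hg ⊢
      set w := ham (cst (b ^ 2 / n) τ) g
      have hS : sq1 (mg (plJ (b ^ 2 / n) g) (plU τ g)) - m * qfix b n m τ =
          gAvg2 w (fun x y => cov12 (m := m) b n τ x y) := by
        simp only [sq1, mg, ev_eq_gAvg, expo_planted, gAvg2, cov12, tot_cmul, sub_eq_add_neg,
          gAvg_add, gAvg_const, gAvg_sum, gAvg_const_mul]
        congr 1
        exact sum_congr rfl fun i _ => by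
          rw [sq, ← gAvg_const_mul]
          exact congrArg _ (funext fun x => mul_comm _ _)
      rw [hS] at hg
      set X := gAvg2 w (fun x y => cov12 (m := m) b n τ x y)
      refine le_trans ?_ (gAvg_mono fun x => exp_gAvg_le w fun y =>
        kov b / m * cov12 (m := m) b n τ x y ^ 2)
      refine le_trans ?_ (exp_gAvg_le w fun x => gAvg w fun y => kov b / m * cov12 (m := m) b n τ x y ^ 2)
      refine exp_le_exp.2 ?_
      simp only [gAvg_const_mul]
      have hsq : X ^ 2 ≤ gAvg w fun x => gAvg w fun y => cov12 (m := m) b n τ x y ^ 2 := by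
        have hh : gAvg w (fun x => gAvg w fun y => 2 * X * cov12 (m := m) b n τ x y + -(X ^ 2)) ≤
            gAvg w fun x => gAvg w fun y => cov12 (m := m) b n τ x y ^ 2 :=
          gAvg_mono fun x => gAvg_mono fun y => by
            nlinarith [sq_nonneg (cov12 (m := m) b n τ x y - X)]
        simp only [gAvg_add, gAvg_const, gAvg_const_mul] at hh
        simp only [X, gAvg2] at hh ⊢
        nlinarith
      have hX2 : (ε * n) ^ 2 ≤ X ^ 2 := by
        rw [← sq_abs X]; exact pow_le_pow_left₀ (by positivity) hg 2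
      calc kov b * ε ^ 2 * n ≤ kov b / m * (ε * n) ^ 2 := by
            rw [div_mul_eq_mul_div, le_div_iff₀ hm']
            have := mul_le_mul_of_nonneg_left hmn' (show 0 ≤ kov b * ε ^ 2 * n by positivity)
            linarith
        _ ≤ _ := mul_le_mul_of_nonneg_left (hX2.trans hsq) (by positivity)
    have hM := mul_meas_ge_le_integral_of_nonneg (μ := gauss (Idx m)) (f := E)
      (ae_of_all _ fun g => le_gAvg2 fun x y => (exp_pos _).le) (integrable_gAvg2_fin _ _)
      (exp (kov b * ε ^ 2 * n))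
    have hp := pair_exp_le hb1 hb0 hm hmn hτ
    refine (measureReal_mono hsub).trans ?_
    rw [exp_neg, ← div_eq_mul_inv, le_div_iff₀ (exp_pos _), mul_comm]
    exact hM.trans hp

lemma add_four_pow_le (a c d e : ℝ) (p : ℕ) :
    |a - c - d + e| ^ p ≤ (4:ℝ) ^ p * (|a| ^ p + |c| ^ p + |d| ^ p + |e| ^ p) := by
  set M := max (max |a| |c|) (max |d| |e|)
  have h1 : |a - c - d + e| ≤ 4 * M := by
    have := le_max_left |a| |c|
    have := le_max_right |a| |c|
    have := le_max_left |d| |e|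
    have := le_max_right |d| |e|
    have := le_max_left (max |a| |c|) (max |d| |e|)
    have := le_max_right (max |a| |c|) (max |d| |e|)
    linarith [abs_add_le (a - c - d) e, abs_sub (a - c) d, abs_sub a c]
  refine (pow_le_pow_left₀ (abs_nonneg _) h1 p).trans ?_
  rw [mul_pow]
  refine mul_le_mul_of_nonneg_left ?_ (by positivity)
  have := pow_nonneg (abs_nonneg a) p
  have := pow_nonneg (abs_nonneg c) p
  have := pow_nonneg (abs_nonneg d) p
  have := pow_nonneg (abs_nonneg e) p
  rcases max_choice (max |a| |c|) (max |d| |e|) with h | h <;> simp only [M, h]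
  · rcases max_choice |a| |c| with h' | h' <;> rw [h'] <;> linarith
  · rcases max_choice |d| |e| with h' | h' <;> rw [h'] <;> linarith

lemma gAvg_abs_pow_le (w f : Conf m → ℝ) (p : ℕ) : |gAvg w f| ^ p ≤ gAvg w fun x => |f x| ^ p := by
  have hw : ∑ x, exp (w x) / ∑ y, exp (w y) = 1 := by
    rw [← sum_div, div_self (sum_exp_pos w).ne']
  have e : ∀ h : Conf m → ℝ, gAvg w h = ∑ x, exp (w x) / (∑ y, exp (w y)) * h x := fun h => by
    simp only [gAvg, sum_div]; exact sum_congr rfl fun x _ => by ring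
  have h1 : |gAvg w f| ≤ gAvg w fun x => |f x| := by
    rw [abs_le]
    constructor
    · have := gAvg_mono (v := w) (f := fun x => -1 * |f x|) (h := f) fun x => by linarith [neg_abs_le (f x)]
      rw [gAvg_const_mul] at this
      linarith
    · exact gAvg_mono fun x => le_abs_self _
  refine (pow_le_pow_left₀ (abs_nonneg _) h1 p).trans ?_
  rw [e, e]
  exact Real.pow_arith_mean_le_arith_mean_pow univ _ _ (fun x _ => div_nonneg (exp_pos _).le
    (sum_exp_pos w).le) hw (fun x _ => abs_nonneg _) p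

/-- `CenterSpec` for every `b < 1`. -/
theorem _root_.Vale.Agent.P150.Weak.centerSpec (b : ℝ) (hb0 : 0 < b) (hb1 : b < 1) : CenterSpec b := by
  have hk := kov_pos hb1 hb0
  refine ⟨16 * max 1 (cov b) * √(1 / (2 * kov b)), fun n m p τ hτ hp hn hmn => ?_⟩
  set C := 16 * max 1 (cov b) * √(1 / (2 * kov b))
  have hC : 0 ≤ (C * √((p:ℝ) * n)) ^ p := by positivity
  rcases Nat.eq_zero_or_pos m with rfl | hm
  · have h0 : ∀ a : Vec 0, ∀ J u, ovLin J u a p = 0 := fun a J u => by
      simp [ovLin, ev, zero_pow (by omega : p ≠ 0)]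
    have h1 : ∀ J u, ovPair (m := 0) J u p = 0 := fun J u => by
      simp [ovPair, ev, zero_pow (by omega : p ≠ 0)]
    simp only [pEv, h0, h1, integral_zero]
    exact ⟨hC, hC, hC⟩
  set c := cst (m := m) (b ^ 2 / n) τ with hc
  set U : Conf m → Conf m → ℝ := fun x y => cov12 b n τ x y with hU
  set M := ∫ g, gAvg2 (ham c g) (fun x y => |U x y| ^ p) ∂gauss (Idx m)
  have hMS : ∫ g, gAvg (ham c g) (fun x => |tot x - m * qfix b n m τ| ^ p) ∂gauss (Idx m) = M :=
    nishimori c (cst_nonneg (by positivity) hτ) _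
  have hsqrt : max 1 (cov b) * √((p:ℝ) * n / (2 * kov b)) * 16 = C * √((p:ℝ) * n) := by
    rw [show (p:ℝ) * n / (2 * kov b) = 1 / (2 * kov b) * ((p:ℝ) * n) by ring,
      sqrt_mul (by positivity)]
    ring
  have hMC : (4:ℝ) ^ p * (4 * M) ≤ (C * √((p:ℝ) * n)) ^ p := by
    have h4 : (4:ℝ) ≤ (4:ℝ) ^ p := le_self_pow₀ (by norm_num) (by omega)
    have hM0 : 0 ≤ M := integral_nonneg fun g => le_gAvg2 fun x y => by positivity
    rw [← hsqrt, mul_pow, show (16:ℝ) = 4 * 4 by norm_num, mul_pow (4:ℝ) 4]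
    calc (4:ℝ) ^ p * (4 * M) ≤ (4:ℝ) ^ p * ((4:ℝ) ^ p * M) := by gcongr
      _ ≤ (4:ℝ) ^ p * ((4:ℝ) ^ p * (max 1 (cov b) * √((p:ℝ) * n / (2 * kov b))) ^ p) := by
          gcongr; exact moment_le hb1 hb0 hm hmn hτ hp
      _ = _ := by ring
  have e0 : ∀ (g : Idx m → ℝ) (i : Fin m), mg (plJ (b ^ 2 / n) g) (plU τ g) i =
      gAvg (ham c g) fun z => spin z i := fun g i => by
    simp only [mg, ev_eq_gAvg, expo_planted, hc]
  -- the centred statistics in terms of centred overlaps
  have hUm : ∀ (g : Idx m → ℝ) x, gAvg (ham c g) (U x) =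
      (∑ i, mg (plJ (b ^ 2 / n) g) (plU τ g) i * spin x i) - m * qfix b n m τ := fun g x => by
    simp only [hU, cov12, tot_cmul, sub_eq_add_neg, gAvg_add, gAvg_const, gAvg_sum, gAvg_const_mul, e0]
    congr 1
    exact sum_congr rfl fun i _ => mul_comm _ _
  have hUU : ∀ g : Idx m → ℝ, gAvg2 (ham c g) U =
      (∑ i, mg (plJ (b ^ 2 / n) g) (plU τ g) i * mg (plJ (b ^ 2 / n) g) (plU τ g) i) -
        m * qfix b n m τ := fun g => by
    simp only [gAvg2, hUm]
    simp only [sub_eq_add_neg, gAvg_add, gAvg_const, gAvg_sum, gAvg_const_mul, e0]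
  have hrow : ∀ g : Idx m → ℝ, gAvg (ham c g) (fun x => |gAvg (ham c g) (U x)| ^ p) ≤
      gAvg2 (ham c g) (fun x y => |U x y| ^ p) := fun g => gAvg_mono fun x => gAvg_abs_pow_le _ _ _
  have hall : ∀ g : Idx m → ℝ, |gAvg2 (ham c g) U| ^ p ≤ gAvg2 (ham c g) (fun x y => |U x y| ^ p) :=
    fun g => (gAvg_abs_pow_le _ _ _).trans (hrow g)
  have hM0 : ∀ g : Idx m → ℝ, 0 ≤ gAvg2 (ham c g) (fun x y => |U x y| ^ p) := fun g =>
    le_gAvg2 fun x y => by positivity
  have iM := integrable_gAvg2_fin c fun x y => |U x y| ^ p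
  have iS := integrable_gAvg_fin c fun x => |tot x - m * qfix b n m τ| ^ p
  have hev : ∀ (g : Idx m → ℝ) (f : Conf m → ℝ),
      ev (plJ (b ^ 2 / n) g) (plU τ g) f = gAvg (ham c g) f := fun g f => by
    simp only [ev_eq_gAvg, expo_planted, hc]
  refine ⟨?_, ?_, ?_⟩
  · refine le_trans ?_ hMC
    have key : ∀ g : Idx m → ℝ, ovPair (plJ (b ^ 2 / n) g) (plU τ g) p ≤
        (4:ℝ) ^ p * (4 * gAvg2 (ham c g) (fun x y => |U x y| ^ p)) := by
      intro g
      simp only [ovPair, hev]
      calc _ ≤ gAvg (ham c g) fun x => gAvg (ham c g) fun y => (4:ℝ) ^ p *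
            (|U x y| ^ p + |gAvg (ham c g) (U x)| ^ p + |gAvg (ham c g) (U y)| ^ p +
              |gAvg2 (ham c g) U| ^ p) := gAvg_mono fun x => gAvg_mono fun y => by
            refine le_trans (le_of_eq ?_) (add_four_pow_le _ _ _ _ p)
            congr 2
            rw [hUm, hUm, hUU]
            simp only [hU, cov12, tot_cmul, csp, sub_mul, mul_sub, sum_sub_distrib]
            simp only [mul_comm (spin x _) (mg _ _ _)]
            ring
        _ ≤ _ := by
            simp only [gAvg_const_mul, gAvg_add, gAvg_const]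
            refine mul_le_mul_of_nonneg_left ?_ (by positivity)
            have := hrow g
            have := hall g
            simp only [gAvg2] at *
            linarith
    refine (integral_mono_of_nonneg (ae_of_all _ fun g => ?_) ((iM.const_mul 4).const_mul _)
      (ae_of_all _ key)).trans_eq ?_
    · simp only [ovPair, hev]
      exact le_trans (gAvg_const (ham c g) 0).ge (gAvg_mono fun x =>
        le_trans (gAvg_const (ham c g) 0).ge (gAvg_mono fun y => by positivity))
    · rw [integral_const_mul, integral_const_mul]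
  · refine le_trans ?_ hMC
    have key : ∀ g : Idx m → ℝ, ovLin (plJ (b ^ 2 / n) g) (plU τ g) (fun _ => 1) p ≤
        (4:ℝ) ^ p * (2 * gAvg (ham c g) (fun x => |tot x - m * qfix b n m τ| ^ p)) := by
      intro g
      set S : Conf m → ℝ := fun x => tot x - m * qfix b n m τ with hS
      simp only [ovLin, hev]
      refine le_trans (gAvg_mono fun x => ?_) (b := gAvg (ham c g) fun x =>
        (4:ℝ) ^ p * (|S x| ^ p + |gAvg (ham c g) S| ^ p)) ?_
      · refine le_trans (le_of_eq ?_) ((add_four_pow_le (S x) (gAvg (ham c g) S) 0 0 p).trans_eq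
          (by simp [zero_pow (by omega : p ≠ 0)]))
        congr 2
        simp only [csp, one_mul, hS, tot, e0, sum_sub_distrib]
        simp only [sub_eq_add_neg, gAvg_add, gAvg_const, gAvg_sum]
        ring
      · simp only [gAvg_const_mul, gAvg_add, gAvg_const]
        have := gAvg_abs_pow_le (ham c g) S p
        exact mul_le_mul_of_nonneg_left (by linarith) (by positivity)
    refine (integral_mono_of_nonneg (ae_of_all _ fun g => ?_) ((iS.const_mul 2).const_mul _)
      (ae_of_all _ key)).trans ?_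
    · simp only [ovLin, hev]
      exact le_trans (gAvg_const (ham c g) 0).ge (gAvg_mono fun x => by positivity)
    · rw [integral_const_mul, integral_const_mul, hMS]
      have : 0 ≤ M := integral_nonneg hM0
      gcongr; linarith
  · refine le_trans ?_ hMC
    have key : ∀ g : Idx m → ℝ,
        ovLin (plJ (b ^ 2 / n) g) (plU τ g) (mg (plJ (b ^ 2 / n) g) (plU τ g)) p ≤
        (4:ℝ) ^ p * (2 * gAvg2 (ham c g) (fun x y => |U x y| ^ p)) := by
      intro g
      simp only [ovLin, hev]
      refine le_trans (gAvg_mono fun x => ?_) (b := gAvg (ham c g) fun x =>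
        (4:ℝ) ^ p * (|gAvg (ham c g) (U x)| ^ p + |gAvg2 (ham c g) U| ^ p)) ?_
      · refine le_trans (le_of_eq ?_) ((add_four_pow_le (gAvg (ham c g) (U x)) (gAvg2 (ham c g) U)
          0 0 p).trans_eq (by simp [zero_pow (by omega : p ≠ 0)]))
        congr 2
        simp only [hUm, hUU, csp, mul_sub, sum_sub_distrib]
        ring
      · simp only [gAvg_const_mul, gAvg_add, gAvg_const]
        have := hrow g
        have := hall g
        exact mul_le_mul_of_nonneg_left (by linarith) (by positivity)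
    refine (integral_mono_of_nonneg (ae_of_all _ fun g => ?_) ((iM.const_mul 2).const_mul _)
      (ae_of_all _ key)).trans ?_
    · simp only [ovLin, hev]
      exact le_trans (gAvg_const (ham c g) 0).ge (gAvg_mono fun x => by positivity)
    · rw [integral_const_mul, integral_const_mul]
      have : 0 ≤ M := integral_nonneg hM0
      gcongr; linarith

end Vale.Agent.P150.Weak.Ov
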