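import Vale.Agent.P150.Weak.Overlap.Nishi

/-!
The derivative of the interpolated moment generating function of the planted overlap.
-/

open MeasureTheory ProbabilityTheory Real Finset Filter
open scoped Topology

namespace Vale.Agent.P150.Weak.Ov

variable {X ι : Type*} [Fintype X] [Nonempty X] [Fintype ι]

lemma hasDerivAt_lse {h : ℝ → X → ℝ} {h' : X → ℝ} {t : ℝ}
    (hd : ∀ x, HasDerivAt (fun s => h s x) (h' x) t) :
    HasDerivAt (fun s => lse (h s)) (gAvg (h t) h') t :=
  (HasDerivAt.fun_sum fun x _ => (hd x).exp).log (sum_exp_pos _).ne'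

lemma hasDerivAt_gAvg {h : ℝ → X → ℝ} {h' : X → ℝ} {t : ℝ} (f : X → ℝ)
    (hd : ∀ x, HasDerivAt (fun s => h s x) (h' x) t) :
    HasDerivAt (fun s => gAvg (h s) f)
      (gAvg (h t) (fun x => f x * h' x) - gAvg (h t) f * gAvg (h t) h') t := by
  refine ((HasDerivAt.fun_sum fun x _ => ((hd x).exp).mul_const (f x)).div
    (HasDerivAt.fun_sum fun x _ => (hd x).exp) (sum_exp_pos (h t)).ne').congr_deriv ?_
  have hZ := (sum_exp_pos (h t)).ne'
  simp only [gAvg]
  rw [show ∑ x, exp (h t x) * h' x * f x = ∑ x, exp (h t x) * (f x * h' x) from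
    sum_congr rfl fun x _ => by ring]
  field_simp

/-- Jensen. -/
lemma exp_gAvg_le (w f : X → ℝ) : exp (gAvg w f) ≤ gAvg w fun x => exp (f x) := by
  set M := gAvg w f
  have h : gAvg w (fun x => exp M * (f x + (1 - M))) ≤ gAvg w fun x => exp (f x) :=
    gAvg_mono fun x => by
      have h1 := add_one_le_exp (f x - M)
      calc exp M * (f x + (1 - M)) ≤ exp M * exp (f x - M) :=
            mul_le_mul_of_nonneg_left (by linarith) (exp_pos _).le
        _ = exp (f x) := by rw [← exp_add]; ring_nf
  rw [gAvg_const_mul, gAvg_add, gAvg_const, add_sub_cancel, mul_one] at h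
  exact h

/-- An exponential average is the exponential of a difference of free energies. -/
lemma gAvg_exp (w f : X → ℝ) :
    gAvg w (fun x => exp (f x)) = exp (lse (fun x => w x + f x) - lse w) := by
  rw [exp_sub, exp_lse, exp_lse]
  simp only [gAvg, exp_add]

/-- A smaller exponent costs a power. -/
lemma gAvg_exp_mul_le (w f : X → ℝ) {a : ℝ} (h0 : 0 ≤ a) (h1 : a ≤ 1) :
    gAvg w (fun x => exp (a * f x)) ≤ exp (a * (lse (fun x => w x + f x) - lse w)) := by
  set M := lse (fun x => w x + f x) - lse w with hM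
  have key : ∀ x, exp (a * f x) ≤ exp (a * M) * ((1 - a) + a * exp (-M) * exp (f x)) := fun x => by
    have hc := convexOn_exp.2 (Set.mem_univ (0:ℝ)) (Set.mem_univ (f x - M)) (sub_nonneg.2 h1) h0
      (by ring)
    simp only [smul_eq_mul, mul_zero, zero_add, exp_zero, mul_one] at hc
    calc exp (a * f x) = exp (a * M) * exp (a * (f x - M)) := by rw [← exp_add]; ring_nf
      _ ≤ exp (a * M) * ((1 - a) + a * exp (f x - M)) :=
          mul_le_mul_of_nonneg_left hc (exp_pos _).le
      _ = _ := by rw [sub_eq_add_neg (f x), exp_add]; ring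
  refine (gAvg_mono key).trans (le_of_eq ?_)
  rw [gAvg_const_mul, gAvg_add, gAvg_const, gAvg_const_mul, gAvg_exp, ← hM, mul_assoc, ← exp_add,
    neg_add_cancel, exp_zero]
  ring

omit [Fintype X] [Nonempty X] in
/-- Young's inequality. -/
lemma young_exp (u y : ℝ) : exp u * y ≤ u * exp u + exp y := by
  have h := mul_le_mul_of_nonneg_left (add_one_le_exp (y - u)) (exp_pos u).le
  rw [← exp_add, add_sub_cancel] at h
  nlinarith [exp_pos u]

omit [Fintype X] [Nonempty X] in
/-- Gaussian integration by parts for a bounded function. -/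
lemma ibp_bdd [DecidableEq ι] {F F' : (ι → ℝ) → ℝ} (i : ι)
    (hd : ∀ g t, HasDerivAt (fun s => F (Function.update g i s)) (F' (Function.update g i t)) t)
    (hc : Continuous F) (hc' : Continuous F') {B : ℝ} (hB : ∀ g, |F g| ≤ B)
    (hB' : ∀ g, |F' g| ≤ B) :
    ∫ g, g i * F g ∂gauss ι = ∫ g, F' g ∂gauss ι := by
  obtain rfl : ‹DecidableEq ι› = fun a b => Classical.propDecidable (a = b) := Subsingleton.elim _ _
  let : DecidableEq ι := fun a b => Classical.propDecidable (a = b)
  have h1 : Integrable (fun g => g i * F g) (gauss ι) :=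
    ((integrable_eval i).bdd_mul hc.aestronglyMeasurable
      (ae_of_all _ fun g => by rw [norm_eq_abs]; exact hB g)).congr
      (ae_of_all _ fun g => mul_comm _ _)
  rw [integral_gauss_update h1 i, integral_gauss_update (integrable_gauss_bound hc' hB') i]
  refine integral_congr_ae (ae_of_all _ fun g => ?_)
  simp only [Function.update_self]
  exact gaussian_ibp (hd g) (F' := fun t => F' (Function.update g i t))
    (hc'.comp (by fun_prop)) (fun t => hB _) (fun t => hB' _)

variable {m : ℕ} (v τ q lam cc : ℝ)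

/-- The interpolated means. -/
noncomputable def cI (s : ℝ) : Idx m → ℝ := cst (s * v) (τ + (1 - s) * (v * m * q))

/-- Their derivative. -/
noncomputable def dcI : Idx m → ℝ := cst v (-(v * m * q))

/-- The tilt. -/
noncomputable def lamI (m : ℕ) (s : ℝ) : ℝ := lam + (1 - s) * (v * m) / 2

/-- The power. -/
noncomputable def aI (s : ℝ) : ℝ := exp (-(cc * s))

/-- The scaled squared deviation. -/
noncomputable def dev (x : Conf m) : ℝ := (tot x - m * q) ^ 2 / m

/-- The tilted Hamiltonian. -/
noncomputable def hamL (s : ℝ) (g : Idx m → ℝ) (x : Conf m) : ℝ :=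
  ham (cI v τ q s) g x + lamI v lam m s * dev q x

/-- `log ⟨exp (λ_s dev)⟩`. -/
noncomputable def lI (s : ℝ) (g : Idx m → ℝ) : ℝ :=
  lse (hamL v τ q lam s g) - lse (ham (cI v τ q s) g)

/-- The interpolated moment. -/
noncomputable def phiI (m : ℕ) (s : ℝ) : ℝ :=
  ∫ g, exp (aI cc s * lI (m := m) v τ q lam s g) ∂gauss (Idx m)

/-- The difference of tilted and untilted means of a spin product. -/
noncomputable def dlt (s : ℝ) (g : Idx m → ℝ) (k : Idx m) : ℝ :=
  gAvg (hamL v τ q lam s g) (sig k) - gAvg (ham (cI v τ q s) g) (sig k)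

variable {v τ q lam cc}

lemma dev_nonneg (x : Conf m) : 0 ≤ dev q x := div_nonneg (sq_nonneg _) (Nat.cast_nonneg _)

lemma dev_le (hq0 : 0 ≤ q) (hq1 : q ≤ 1) (x : Conf m) : dev q x ≤ 4 * m := by
  rcases Nat.eq_zero_or_pos m with rfl | hm
  · simp [dev]
  rw [dev, div_le_iff₀ (Nat.cast_pos.2 hm)]
  have h1 : |tot x| ≤ m := by
    refine (abs_sum_le_sum_abs _ _).trans (le_of_eq ?_)
    rw [sum_congr rfl fun i _ => show |spin x i| = 1 by unfold spin; split_ifs <;> norm_num]
    simp
  have h2 : |tot x - m * q| ≤ 2 * m := by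
    refine (abs_sub _ _).trans ?_
    rw [abs_mul, Nat.abs_cast, abs_of_nonneg hq0]
    nlinarith [(Nat.cast_nonneg m : (0:ℝ) ≤ m)]
  nlinarith [sq_abs (tot x - m * q), abs_nonneg (tot x - m * q)]

lemma lI_bounds (hv : 0 ≤ v) (hlam : 0 ≤ lam) (hq0 : 0 ≤ q) (hq1 : q ≤ 1) {s : ℝ} (hs : s ≤ 1)
    (g : Idx m → ℝ) :
    0 ≤ lI v τ q lam s g ∧ lI v τ q lam s g ≤ lamI v lam m s * (4 * m) := by
  have hl : 0 ≤ lamI v lam m s :=
    add_nonneg hlam (div_nonneg (mul_nonneg (by linarith) (by positivity)) zero_le_two)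
  constructor
  · refine le_trans (le_trans (le_of_eq (gAvg_const (ham (cI v τ q s) g) 0).symm)
      (gAvg_mono fun x => ?_)) (lse_tangent (ham (cI v τ q s) g) (hamL v τ q lam s g))
    simp only [hamL, add_sub_cancel_left]
    exact mul_nonneg hl (dev_nonneg x)
  · refine (le_abs_self _).trans (abs_lse_sub_le fun x => ?_)
    simp only [hamL, add_sub_cancel_left]
    rw [abs_of_nonneg (mul_nonneg hl (dev_nonneg x))]
    exact mul_le_mul_of_nonneg_left (dev_le hq0 hq1 x) hl

@[fun_prop]
lemma continuous_ham (c : Idx m → ℝ) (x : Conf m) : Continuous fun g : Idx m → ℝ => ham c g x := by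
  unfold ham; fun_prop

@[fun_prop]
lemma continuous_gAvg_ham (c : Idx m → ℝ) (f : Conf m → ℝ) :
    Continuous fun g : Idx m → ℝ => gAvg (ham c g) f := by
  unfold gAvg
  exact Continuous.div₀ (by fun_prop) (by fun_prop) fun g => (sum_exp_pos _).ne'

@[fun_prop]
lemma continuous_gAvg2_ham (c : Idx m → ℝ) (φ : Conf m → Conf m → ℝ) :
    Continuous fun g : Idx m → ℝ => gAvg2 (ham c g) φ := by
  unfold gAvg2 gAvg
  exact Continuous.div₀
    (continuous_finsetSum _ fun x _ => (by fun_prop : Continuous fun g => exp (ham c g x)).mul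
      (Continuous.div₀ (by fun_prop) (by fun_prop) fun g => (sum_exp_pos _).ne'))
    (by fun_prop) fun g => (sum_exp_pos _).ne'

@[fun_prop]
lemma continuous_lI (s : ℝ) : Continuous fun g : Idx m → ℝ => lI v τ q lam s g := by
  unfold lI lse hamL
  exact ((by fun_prop : Continuous fun g : Idx m → ℝ =>
      ∑ x, exp (ham (cI v τ q s) g x + lamI v lam m s * dev q x)).log
        fun g => (sum_exp_pos _).ne').sub
    ((by fun_prop : Continuous fun g : Idx m → ℝ => ∑ x, exp (ham (cI v τ q s) g x)).log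
      fun g => (sum_exp_pos _).ne')

@[fun_prop]
lemma continuous_gAvg_hamL (s : ℝ) (f : Conf m → ℝ) :
    Continuous fun g : Idx m → ℝ => gAvg (hamL v τ q lam s g) f := by
  unfold gAvg hamL
  exact Continuous.div₀ (by fun_prop) (by fun_prop) fun g => (sum_exp_pos _).ne'

lemma hasDerivAt_ham_update (c : Idx m → ℝ) (g : Idx m → ℝ) (k : Idx m) (x : Conf m) (t : ℝ) :
    HasDerivAt (fun u => ham c (Function.update g k u) x) (√(c k) * sig k x) t := by
  have h1 : ∀ u, ham c (Function.update g k u) x = ham c g x + √(c k) * sig k x * (u - g k) := by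
    intro u
    have : ∀ j, (c j + √(c j) * Function.update g k u j) * sig j x =
        (c j + √(c j) * g j) * sig j x + if j = k then √(c j) * sig j x * (u - g j) else 0 := by
      intro j
      by_cases hj : j = k
      · subst hj; simp; ring
      · simp [hj]
    simp only [ham, this, sum_add_distrib, sum_ite_eq', mem_univ, if_true]
  rw [funext h1]
  simpa using (((hasDerivAt_id t).sub_const (g k)).const_mul (√(c k) * sig k x)).const_add (ham c g x)

@[fun_prop]
lemma continuous_dlt (s : ℝ) (k : Idx m) :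
    Continuous fun g : Idx m → ℝ => dlt v τ q lam s g k :=
  (continuous_gAvg_hamL s _).sub (continuous_gAvg_ham _ _)

lemma abs_dlt_le (s : ℝ) (g : Idx m → ℝ) (k : Idx m) : |dlt v τ q lam s g k| ≤ 2 :=
  (abs_sub _ _).trans (by
    linarith [abs_gAvg_le (v := hamL v τ q lam s g) fun x => (abs_sig k x).le,
      abs_gAvg_le (v := ham (cI v τ q s) g) fun x => (abs_sig k x).le])

/-- Integration by parts along one disorder coordinate. -/
lemma ibp_dlt (hv : 0 ≤ v) (hlam : 0 ≤ lam) (hq0 : 0 ≤ q) (hq1 : q ≤ 1) {s : ℝ} (hs : s ≤ 1)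
    {a : ℝ} (ha0 : 0 ≤ a) (ha1 : a ≤ 1) (k : Idx m) :
    ∫ g, g k * (exp (a * lI v τ q lam s g) * dlt v τ q lam s g k) ∂gauss (Idx m) =
      ∫ g, √(cI v τ q s k) * (exp (a * lI v τ q lam s g) *
        (a * dlt v τ q lam s g k ^ 2 - gAvg (hamL v τ q lam s g) (sig k) ^ 2 +
          gAvg (ham (cI v τ q s) g) (sig k) ^ 2)) ∂gauss (Idx m) := by
  set r := √(cI v τ q s k)
  set E := exp (lamI v lam m s * (4 * m))
  have hE : ∀ g : Idx m → ℝ, exp (a * lI v τ q lam s g) ≤ E := fun g => by
    obtain ⟨h1, h2⟩ := lI_bounds hv hlam hq0 hq1 hs g (τ := τ)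
    exact exp_le_exp.2 ((mul_le_of_le_one_left h1 ha1).trans h2)
  refine ibp_bdd k (B := max (E * 2) (|r| * (E * 6))) (fun g t => ?_)
    (((continuous_const.mul (continuous_lI s)).rexp).mul (continuous_dlt s k))
    (continuous_const.mul (((continuous_const.mul (continuous_lI s)).rexp).mul (((continuous_const.mul
      ((continuous_dlt s k).pow 2)).sub ((continuous_gAvg_hamL s _).pow 2)).add
      ((continuous_gAvg_ham _ _).pow 2)))) (fun g => ?_) fun g => ?_
  · have h0 : ∀ x, HasDerivAt (fun u => ham (cI v τ q s) (Function.update g k u) x)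
        (r * sig k x) t := fun x => hasDerivAt_ham_update _ g k x t
    have h1 : ∀ x, HasDerivAt (fun u => hamL v τ q lam s (Function.update g k u) x)
        (r * sig k x) t := fun x => (h0 x).add_const _
    have hL : HasDerivAt (fun u => lI v τ q lam s (Function.update g k u))
        (r * dlt v τ q lam s (Function.update g k t) k) t := by
      refine ((hasDerivAt_lse h1).sub (hasDerivAt_lse h0)).congr_deriv ?_
      rw [gAvg_const_mul, gAvg_const_mul, dlt]; ring
    have hD : HasDerivAt (fun u => dlt v τ q lam s (Function.update g k u) k)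
        (r * (gAvg (ham (cI v τ q s) (Function.update g k t)) (sig k) ^ 2 -
          gAvg (hamL v τ q lam s (Function.update g k t)) (sig k) ^ 2)) t := by
      refine ((hasDerivAt_gAvg (sig k) h1).sub (hasDerivAt_gAvg (sig k) h0)).congr_deriv ?_
      have e : (fun x => sig k x * (r * sig k x)) = fun _ => r := funext fun x => by
        linear_combination r * sig_sq k x
      simp only [e, gAvg_const, gAvg_const_mul]
      ring
    refine ((hL.const_mul a).exp.fun_mul hD).congr_deriv ?_
    ring
  · rw [abs_mul, abs_of_pos (exp_pos _)]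
    exact (mul_le_mul (hE g) (abs_dlt_le s g k) (abs_nonneg _) (exp_pos _).le).trans (le_max_left _ _)
  · rw [abs_mul, abs_mul, abs_of_pos (exp_pos _)]
    refine le_trans (mul_le_mul_of_nonneg_left (mul_le_mul (hE g) ?_ (abs_nonneg _) (exp_pos _).le)
      (abs_nonneg _)) (le_max_right _ _)
    have b1 := abs_gAvg_le (v := hamL v τ q lam s g) fun x => (abs_sig k x).le
    have b2 := abs_gAvg_le (v := ham (cI v τ q s) g) fun x => (abs_sig k x).le
    have b3 := abs_dlt_le (v := v) (τ := τ) (q := q) (lam := lam) s g k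
    have c1 := (sq_le_one_iff_abs_le_one _).2 b1
    have c2 := (sq_le_one_iff_abs_le_one _).2 b2
    have c3 : dlt v τ q lam s g k ^ 2 ≤ 4 := by
      rw [← sq_abs]; nlinarith [abs_nonneg (dlt v τ q lam s g k)]
    rw [abs_le]
    constructor <;> nlinarith [sq_nonneg (dlt v τ q lam s g k),
      sq_nonneg (gAvg (hamL v τ q lam s g) (sig k)), sq_nonneg (gAvg (ham (cI v τ q s) g) (sig k))]

lemma sum_pairSpin (x : Conf m) : ∑ e, pairSpin x e = (tot x ^ 2 - m) / 2 := by
  have h := Gap.sum_sym_eq (f := fun i j => spin x i * spin x j) fun i j => mul_comm _ _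
  have h1 : ∀ i, spin x i * spin x i = 1 := fun i => by unfold spin; split_ifs <;> norm_num
  simp only [← Finset.mul_sum, ← Finset.sum_mul, h1, sum_const, card_univ, Fintype.card_fin,
    nsmul_eq_mul, mul_one] at h
  simp only [pairSpin, tot, sq] at h ⊢
  linarith

/-- The drift of the interpolation is a completed square. -/
lemma sum_dcI (hm : 0 < m) (x : Conf m) :
    ∑ k, dcI v q k * sig k x = v * m / 2 * dev q x + -(v * m / 2 * (1 + m * q ^ 2)) := by
  have hm' : (m:ℝ) ≠ 0 := (Nat.cast_pos.2 hm).ne'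
  simp only [dcI, cst, Fintype.sum_sum_type, Sum.elim_inl, Sum.elim_inr, sig, ← Finset.mul_sum,
    sum_pairSpin]
  show _ + -(v * m * q) * tot x = _
  rw [dev]
  field_simp
  ring

lemma sum_dcI_gAvg (hm : 0 < m) (w : Conf m → ℝ) :
    ∑ k, dcI v q k * gAvg w (sig k) =
      v * m / 2 * gAvg w (dev q) + -(v * m / 2 * (1 + m * q ^ 2)) := by
  have h := congrArg (gAvg w) (funext (sum_dcI (v := v) (q := q) hm))
  rw [gAvg_sum, gAvg_add, gAvg_const_mul, gAvg_const] at h
  simp only [gAvg_const_mul] at h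
  exact h

lemma sum_dcI_cross (hm : 0 < m) (w w' : Conf m → ℝ) :
    ∑ k, dcI v q k * (gAvg w (sig k) * gAvg w' (sig k)) =
      v * m / 2 * gAvg w (fun x => gAvg w' fun y => dev q (cmul x y)) +
        -(v * m / 2 * (1 + m * q ^ 2)) := by
  have h : ∀ x, ∑ k, (dcI v q k * gAvg w' (sig k)) * sig k x =
      v * m / 2 * gAvg w' (fun y => dev q (cmul x y)) + -(v * m / 2 * (1 + m * q ^ 2)) := fun x => by
    have h := congrArg (gAvg w') (funext fun y => sum_dcI (v := v) (q := q) hm (cmul x y))
    rw [gAvg_sum, gAvg_add, gAvg_const_mul, gAvg_const] at h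
    rw [← h]
    refine sum_congr rfl fun k _ => ?_
    rw [show (fun y => dcI v q k * sig k (cmul x y)) = fun y => (dcI v q k * sig k x) * sig k y
      from funext fun y => by rw [sig_cmul]; ring, gAvg_const_mul]
    ring
  have h2 := congrArg (gAvg w) (funext h)
  rw [gAvg_sum, gAvg_add, gAvg_const_mul, gAvg_const] at h2
  rw [← h2]
  refine sum_congr rfl fun k _ => ?_
  rw [gAvg_const_mul]
  ring

end Vale.Agent.P150.Weak.Ov
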