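import Vale.Agent.P150.Weak.Defs
import Vale.Agent.P150.Gap.Goe

/-!
The planted family as a shifted Gaussian vector, and the Nishimori identity: under the planted law
the overlap of two replicas has the law of the overlap with the planted configuration.
-/

open MeasureTheory ProbabilityTheory Real Finset

namespace Vale.Agent.P150.Weak.Ov

open Gap

variable {m : ℕ}

/-- The spin products coupled to the disorder: pairs and sites. -/
def sig : Idx m → Conf m → ℝ
  | .inl e, x => pairSpin x e
  | .inr i, x => spin x i

/-- The product configuration. -/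
def cmul (x y : Conf m) : Conf m := fun i => x i == y i

/-- The magnetisation of a configuration. -/
def tot (x : Conf m) : ℝ := ∑ i, spin x i

/-- The Hamiltonian with means and variances `c`. -/
noncomputable def ham (c : Idx m → ℝ) (g : Idx m → ℝ) (x : Conf m) : ℝ :=
  ∑ k, (c k + √(c k) * g k) * sig k x

/-- The means of the planted family. -/
def cst (v τ : ℝ) : Idx m → ℝ := Sum.elim (fun _ => v) (fun _ => τ)

lemma spin_cmul (x y : Conf m) (i : Fin m) : spin (cmul x y) i = spin x i * spin y i := by
  unfold spin cmul; cases x i <;> cases y i <;> simp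

lemma sig_cmul (k : Idx m) (x y : Conf m) : sig k (cmul x y) = sig k x * sig k y := by
  rcases k with e | i <;> simp only [sig, pairSpin, spin_cmul]
  ring

lemma tot_cmul (x y : Conf m) : tot (cmul x y) = ∑ i, spin x i * spin y i := by
  simp [tot, spin_cmul]

lemma abs_sig (k : Idx m) (x : Conf m) : |sig k x| = 1 := by
  rcases k with e | i
  · exact abs_pairSpin x e
  · show |spin x i| = 1
    unfold spin; split_ifs <;> norm_num

lemma sig_sq (k : Idx m) (x : Conf m) : sig k x ^ 2 = 1 := by rw [← sq_abs, abs_sig, one_pow]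

lemma cmul_cmul_self (x y : Conf m) : cmul x (cmul x y) = y := by
  funext i; unfold cmul; cases x i <;> cases y i <;> rfl

lemma cmul_cmul_cmul (s x y : Conf m) : cmul (cmul s x) (cmul s y) = cmul x y := by
  funext i; unfold cmul; cases s i <;> cases x i <;> cases y i <;> rfl

/-- Multiplication by a configuration is an involution. -/
def cmulEquiv (s : Conf m) : Conf m ≃ Conf m :=
  ⟨cmul s, cmul s, cmul_cmul_self s, cmul_cmul_self s⟩

lemma ev_eq_gAvg (J : Mat m) (u : Vec m) (f : Conf m → ℝ) :
    ev J u f = gAvg (fun x => expo J u x) f := by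
  simp only [ev, mu, wt, gAvg, Finset.sum_div]
  exact Finset.sum_congr rfl fun x _ => by ring

lemma expo_planted (v τ : ℝ) (g : Idx m → ℝ) (x : Conf m) :
    expo (plJ v g) (plU τ g) x = ham (cst v τ) g x := by
  simp only [expo, ham, cst, Fintype.sum_sum_type, Sum.elim_inl, Sum.elim_inr, plU]
  congr 1
  have h : ∀ i j, plJ v g i j * spin x i * spin x j =
      sym (fun e => v + √v * g (.inl e)) i j * spin x i * spin x j := by
    intro i j
    unfold plJ
    by_cases hij : i = j
    · subst hij; simp [sym_self]
    · rw [if_neg hij]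
      rcases lt_or_gt_of_ne hij with h | h
      · rw [sym_of_lt _ h, sym_of_lt _ h]
      · rw [sym_comm _ i j, sym_of_lt _ h, sym_comm _ i j, sym_of_lt _ h]
  have h2 : ∑ i, ∑ j, plJ v g i j * spin x i * spin x j =
      2 * ∑ e : Edge m, (v + √v * g (.inl e)) * pairSpin x e := by
    simp only [h]
    exact quad_eq _ (spin x)
  rw [h2, mul_div_cancel_left₀ _ two_ne_zero]
  rfl

/-- An expectation in the planted family as a Gaussian integral. -/
lemma pEv_eq (b : ℝ) (n : ℕ) (τ : ℝ) (F : Conf m → ℝ) :
    pEv b n m τ (fun J u => ev J u F) =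
      ∫ g, gAvg (ham (cst (b ^ 2 / n) τ) g) F ∂gauss (Idx m) := by
  refine integral_congr_ae (ae_of_all _ fun g => ?_)
  simp only [ev_eq_gAvg, expo_planted]

variable {ι : Type*} [Fintype ι]

/-- Shifting independent standard Gaussians. -/
lemma integral_shift (a : ι → ℝ) (F : (ι → ℝ) → ℝ) (hF : Continuous F) :
    ∫ g, F (g + a) ∂gauss ι = ∫ z, exp (∑ i, (a i * z i - a i ^ 2 / 2)) * F z ∂gauss ι := by
  set d : ι → ℝ → ℝ := fun i t => exp (a i * t - a i ^ 2 / 2) with hd
  have hdi : ∀ i, Integrable (d i) (gaussianReal 0 1) := fun i => by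
    refine ((integrable_exp_mul_gaussianReal (a i)).const_mul (exp (-(a i ^ 2 / 2)))).congr
      (ae_of_all _ fun t => ?_)
    simp only [hd, ← exp_add]; ring_nf
  set D : (ι → ℝ) → ℝ := fun z => ∏ i, d i (z i) with hD
  have hDe : ∀ z, D z = exp (∑ i, (a i * z i - a i ^ 2 / 2)) := fun z => by
    simp only [hD, hd, exp_sum]
  have hDm : Measurable D := by simp only [hD, hd]; fun_prop
  have key : (gauss ι).map (fun g => g + a) =
      (gauss ι).withDensity fun z => ENNReal.ofReal (D z) := by
    have hsh : (gauss ι).map (fun g => g + a) = Measure.pi fun i => gaussianReal (a i) 1 := by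
      refine (measurePreserving_pi (fun _ : ι => gaussianReal 0 1)
        (fun i => gaussianReal (a i) 1) (f := fun i t => t + a i) fun i => ⟨by fun_prop, ?_⟩).map_eq
      simpa using gaussianReal_map_add_const (μ := 0) (v := 1) (a i)
    rw [hsh]
    refine Measure.pi_eq fun s hs => ?_
    have hp : MeasurableSet (Set.univ.pi s) := MeasurableSet.univ_pi hs
    have hind : (Set.univ.pi s).indicator D = fun z => ∏ i, (s i).indicator (d i) (z i) := by
      funext z
      by_cases hz : z ∈ Set.univ.pi s
      · rw [Set.indicator_of_mem hz]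
        exact prod_congr rfl fun i _ => (Set.indicator_of_mem (hz i trivial) _).symm
      · rw [Set.indicator_of_notMem hz]
        obtain ⟨i, hi⟩ : ∃ i, z i ∉ s i := by simpa using hz
        exact (prod_eq_zero (mem_univ i) (Set.indicator_of_notMem hi _)).symm
    have hDi : Integrable D (gauss ι) := Integrable.fintype_prod hdi
    rw [withDensity_apply _ hp, ← ofReal_integral_eq_lintegral_ofReal hDi.integrableOn
      (ae_of_all _ fun z => prod_nonneg fun i _ => (exp_pos _).le), ← integral_indicator hp,
      hind, gauss, integral_fintype_prod_eq_prod (fun i t => (s i).indicator (d i) t),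
      ENNReal.ofReal_prod_of_nonneg fun i _ => integral_nonneg fun t =>
        Set.indicator_nonneg (fun _ _ => (exp_pos _).le) t]
    refine prod_congr rfl fun i _ => ?_
    rw [gaussianReal_apply_eq_integral _ one_ne_zero, integral_indicator (hs i),
      ← integral_indicator (hs i), ← integral_indicator (hs i),
      integral_gaussianReal_eq_integral_smul one_ne_zero]
    congr 1
    refine integral_congr_ae (ae_of_all _ fun t => ?_)
    by_cases ht : t ∈ s i
    · simp only [Set.indicator_of_mem ht, gaussianPDFReal, smul_eq_mul]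
      rw [mul_assoc, ← exp_add]
      norm_num
      left
      ring_nf
    · simp [Set.indicator_of_notMem ht]
  calc ∫ g, F (g + a) ∂gauss ι = ∫ z, F z ∂(gauss ι).map (fun g => g + a) :=
        (integral_map (by fun_prop) hF.aestronglyMeasurable).symm
    _ = ∫ z, D z • F z ∂gauss ι := by
        rw [key, integral_withDensity_eq_integral_toReal_smul (by fun_prop)
          (ae_of_all _ fun z => ENNReal.ofReal_lt_top)]
        refine integral_congr_ae (ae_of_all _ fun z => ?_)
        have h0 : 0 ≤ D z := prod_nonneg fun i _ => (exp_pos _).le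
        show (ENNReal.ofReal (D z)).toReal • F z = D z • F z
        rw [ENNReal.toReal_ofReal h0]
    _ = _ := integral_congr_ae (ae_of_all _ fun z => by simp only [hDe, smul_eq_mul])

/-- **Nishimori identity**. -/
theorem nishimori (c : Idx m → ℝ) (hc : ∀ k, 0 ≤ c k) (f : Conf m → ℝ) :
    ∫ g, gAvg (ham c g) f ∂gauss (Idx m) =
      ∫ g, gAvg2 (ham c g) (fun x y => f (cmul x y)) ∂gauss (Idx m) := by
  set a : Idx m → ℝ := fun k => √(c k) with ha
  set A : Idx m → Conf m → ℝ := fun k x => a k * sig k x with hA
  set one : Conf m := fun _ => true with hone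
  set K : ℝ := exp (-(∑ k, a k ^ 2 / 2)) with hK
  have hsone : ∀ k, sig k one = 1 := fun k => by
    rcases k with e | i <;> simp [sig, pairSpin, spin, hone]
  have hH : ∀ g, ham c g = wsum A (g + a) := fun g => funext fun x => by
    refine Finset.sum_congr rfl fun k _ => ?_
    simp only [hA, ha, Pi.add_apply]
    linear_combination -(sig k x) * mul_self_sqrt (hc k)
  have hexp : ∀ z, exp (∑ k, (a k * z k - a k ^ 2 / 2)) = K * exp (wsum A z one) := fun z => by
    rw [hK, ← exp_add]
    congr 1
    simp [wsum, hA, hsone, sum_sub_distrib, mul_comm]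
    ring
  have hflip : ∀ s : Conf m, MeasurePreserving (fun z : Idx m → ℝ => fun k => sig k s * z k)
      (gauss (Idx m)) (gauss (Idx m)) := fun s =>
    measurePreserving_pi (fun _ : Idx m => gaussianReal 0 1) (fun _ => gaussianReal 0 1)
      fun k => ⟨by fun_prop, by
        rw [gaussianReal_map_const_mul, mul_zero]
        congr 1
        ext; simp [sig_sq]⟩
  have hWf : ∀ (s : Conf m) z x, wsum A (fun k => sig k s * z k) x = wsum A z (cmul s x) :=
    fun s z x => Finset.sum_congr rfl fun k _ => by simp only [hA, sig_cmul]; ring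
  have hsum : ∀ (s : Conf m) z (h : Conf m → ℝ),
      gAvg (wsum A fun k => sig k s * z k) h = gAvg (wsum A z) (fun y => h (cmul s y)) := by
    intro s z h
    simp only [gAvg, hWf]
    congr 1
    · exact Fintype.sum_equiv (cmulEquiv s) _ _ fun x => by simp [cmulEquiv, cmul_cmul_self]
    · exact Fintype.sum_equiv (cmulEquiv s) _ _ fun x => rfl
  have hint : ∀ (G : (Idx m → ℝ) → ℝ) (B : ℝ) (x : Conf m), Continuous G → (∀ z, |G z| ≤ B) →
      Integrable (fun z => exp (wsum A z x) * G z) (gauss (Idx m)) := by
    intro G B x hG hB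
    have h1 : Integrable (fun z : Idx m → ℝ => exp (wsum A z x)) (gauss (Idx m)) := by
      refine (Integrable.fintype_prod (f := fun k t => exp (A k x * t))
        fun k => integrable_exp_mul_gaussianReal _).congr (ae_of_all _ fun z => ?_)
      simp only [wsum, exp_sum]
      exact prod_congr rfl fun k _ => by ring_nf
    exact h1.mul_bdd (c := B) hG.aestronglyMeasurable
      (ae_of_all _ fun z => by rw [norm_eq_abs]; exact hB z)
  -- an expectation as an average over the planted configuration
  have main : ∀ (G : (Idx m → ℝ) → ℝ) (G' : Conf m → (Idx m → ℝ) → ℝ) (B : ℝ), Continuous G →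
      (∀ s, Continuous (G' s)) → (∀ s z, |G' s z| ≤ B) →
      (∀ s z, G (fun k => sig k s * z k) = G' s z) →
      (Fintype.card (Conf m) : ℝ) * ∫ g, G (g + a) ∂gauss (Idx m) =
        K * ∫ z, ∑ s, exp (wsum A z s) * G' s z ∂gauss (Idx m) := by
    intro G G' B hG hG' hB he
    rw [integral_finsetSum _ fun s _ => hint (G' s) B s (hG' s) (hB s), mul_sum,
      ← Finset.card_univ, ← nsmul_eq_mul, ← Finset.sum_const]
    refine Finset.sum_congr rfl fun s _ => ?_
    rw [integral_shift a G hG, ← integral_const_mul]
    have h := integral_comp_mp (hflip s)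
      (F := fun z => exp (∑ k, (a k * z k - a k ^ 2 / 2)) * G z) (by fun_prop)
    rw [← h]
    refine integral_congr_ae (ae_of_all _ fun z => ?_)
    simp only [hexp, he, hWf]
    rw [show cmul s one = s from funext fun i => by simp [cmul, hone]]
    ring
  set B := ∑ x, |f x|
  have hf : ∀ x, |f x| ≤ B := fun x =>
    single_le_sum (f := fun x => |f x|) (fun y _ => abs_nonneg _) (mem_univ x)
  have e1 := main (fun z => gAvg (wsum A z) f)
    (fun s z => gAvg (wsum A z) fun y => f (cmul s y)) B (continuous_gAvg_wsum _ _)
    (fun s => continuous_gAvg_wsum _ _) (fun s z => abs_gAvg_le fun y => hf _) fun s z => hsum s z f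
  have e2 := main (fun z => gAvg2 (wsum A z) fun x y => f (cmul x y))
    (fun _ z => gAvg2 (wsum A z) fun x y => f (cmul x y)) B (continuous_gAvg2_wsum _ _)
    (fun s => continuous_gAvg2_wsum _ _)
    (fun s z => abs_gAvg_le fun x => abs_gAvg_le fun y => hf _) fun s z => by
      simp only [gAvg2, hsum, cmul_cmul_cmul]
  simp only [hH]
  refine mul_left_cancel₀ (show (Fintype.card (Conf m) : ℝ) ≠ 0 by simp) ?_
  rw [e1, e2]
  congr 1
  refine integral_congr_ae (ae_of_all _ fun z => ?_)
  simp only [← Finset.sum_mul, gAvg2]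
  rw [show gAvg (wsum A z) (fun x => gAvg (wsum A z) fun y => f (cmul x y)) =
    (∑ x, exp (wsum A z x) * gAvg (wsum A z) (fun y => f (cmul x y))) / ∑ x, exp (wsum A z x)
    from rfl, mul_div_cancel₀ _ (sum_exp_pos _).ne']

end Vale.Agent.P150.Weak.Ov
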